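import Vale.Agent.P262.H713.CF1b

/-!
# P262, milestone 2: the cut-off field on trees (part 1c): the tree of a state, cut, slope expansion
-/

set_option linter.all false

open MeasureTheory ProbabilityTheory Set
open scoped ENNReal RealInnerProductSpace Classical

namespace Vale.Agent.P262.H713

open Vale.Agent.P262.H395 (mix fib Inv measurable_fib fib_mono fib_const fib_add fib_mul
  fib_eq_self inv_fib fib_tower Fixes)
open Vale.Agent.P262.H847 (UI)
open Vale.Agent.P262.H654 (tr phi sg Bd InvR fr sg_pos one_le_sg sg_mono)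

variable {E : Type*} [NormedAddCommGroup E] [InnerProductSpace ℝ E]
variable [FiniteDimensional ℝ E] [MeasurableSpace E] [BorelSpace E] {ι κ : Type*}

/-- the field tree of a state below the node `p`, in the coordinates of `p` -/
noncomputable def sft (Q : Pa E) (c : List ℕ → E → ℝ) (Z : List ℕ → Set E)
    (cls : List ℕ → E → ℕ) : ℕ → List ℕ → FT E Unit
  | 0, _ => .leaf ()
  | n + 1, p => .node (Q.W p) (c p) (Z p) (cls p)
      (fun k => if Q.lf p then .leaf () else FT.mp (Q.P (k :: p)) (sft Q c Z cls n (k :: p)))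

/-- the upper part (`j` levels) of the field tree; the leaf `inr q` is the node `q` -/
noncomputable def stop (Q : Pa E) (c : List ℕ → E → ℝ) (Z : List ℕ → Set E)
    (cls : List ℕ → E → ℕ) : ℕ → List ℕ → FT E (Unit ⊕ List ℕ)
  | 0, p => .leaf (Sum.inr p)
  | j + 1, p => .node (Q.W p) (c p) (Z p) (cls p)
      (fun k => if Q.lf p then .leaf (Sum.inl ()) else FT.mp (Q.P (k :: p)) (stop Q c Z cls j (k :: p)))

variable {Q Q' : Pa E} {c c' : List ℕ → E → ℝ} {D Z Z' : List ℕ → Set E}
  {cls cls' : List ℕ → E → ℕ}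

lemma sft_zero (p : List ℕ) : sft Q c Z cls 0 p = .leaf () := rfl

lemma sft_succ (n : ℕ) (p : List ℕ) : sft Q c Z cls (n + 1) p = .node (Q.W p) (c p) (Z p) (cls p)
    (fun k => if Q.lf p then .leaf () else FT.mp (Q.P (k :: p)) (sft Q c Z cls n (k :: p))) := rfl

lemma stop_succ (n : ℕ) (p : List ℕ) : stop Q c Z cls (n + 1) p
    = .node (Q.W p) (c p) (Z p) (cls p) (fun k => if Q.lf p then .leaf (Sum.inl ()) else
      FT.mp (Q.P (k :: p)) (stop Q c Z cls n (k :: p))) := rfl

/-- the tree below `p` depends only on the arrays at `p` and below `p`. -/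
theorem sft_congr : ∀ (n : ℕ) {p : List ℕ} (_ : Same Q Q' Z Z' cls cls' p)
    (_ : ∀ r, c (r ++ p) = c' (r ++ p)), sft Q c Z cls n p = sft Q' c' Z' cls' n p := by
  intro n
  induction n with
  | zero => intro p h hD; rfl
  | succ n ih =>
    intro p h hD
    have h1 := h.W []
    have h2 := h.lf []
    have h3 := h.Z []
    have h4 := h.cls []
    have h5 := hD []
    simp only [List.nil_append] at h1 h2 h3 h4 h5
    rw [sft_succ, sft_succ, h1, h3, h4, h5]
    congr 1
    funext k
    by_cases hl : Q.lf p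
    · rw [if_pos hl, if_pos (h2.1 hl)]
    · rw [if_neg hl, if_neg (fun h7 => hl (h2.2 h7)), h.P_cons k,
        ih (h.child k) (fun r => by
          have := hD (r ++ [k])
          simpa using this)]

/-- the upper part (`j` levels) depends only on the arrays of the upper nodes; the maps `P q` of the
nodes `q` at the depth `j` do not matter. -/
theorem stop_congr : ∀ (j : ℕ) {p : List ℕ}
    (_ : ∀ r : List ℕ, r.length < j → Q.W (r ++ p) = Q'.W (r ++ p) ∧
      (Q.lf (r ++ p) ↔ Q'.lf (r ++ p)) ∧ Z (r ++ p) = Z' (r ++ p) ∧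
      cls (r ++ p) = cls' (r ++ p) ∧ c (r ++ p) = c' (r ++ p))
    (_ : ∀ r : List ℕ, r ≠ [] → r.length < j → Q.P (r ++ p) = Q'.P (r ++ p)),
    stop Q c Z cls j p = stop Q' c' Z' cls' j p := by
  intro j
  induction j with
  | zero => intro p _ _; rfl
  | succ j ih =>
    intro p h hP
    obtain ⟨h1, h2, h3, h4, h5⟩ := h [] (by simp)
    simp only [List.nil_append] at h1 h2 h3 h4 h5
    rw [stop_succ, stop_succ, h1, h3, h4, h5]
    congr 1
    funext k
    have hih := ih (p := k :: p) (fun r hr => by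
        have := h (r ++ [k]) (by simp; omega)
        simpa using this) (fun r hr hr' => by
        have := hP (r ++ [k]) (by simp) (by simp; omega)
        simpa using this)
    by_cases hl : Q.lf p
    · rw [if_pos hl, if_pos (h2.1 hl)]
    · rw [if_neg hl, if_neg (fun h7 => hl (h2.2 h7))]
      cases j with
      | zero => rfl
      | succ j =>
        have hPc : Q.P (k :: p) = Q'.P (k :: p) := by
          have := hP [k] (List.cons_ne_nil _ _) (by simp)
          simpa using this
        rw [hPc, hih]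

/-- **cutting the field tree at the level of the nodes `q`.** -/
theorem sft_cut (n : ℕ) : ∀ (j : ℕ) (p : List ℕ),
    sft Q c Z cls (j + n) p = (stop Q c Z cls j p).bind (fun i => match i with
      | Sum.inl _ => FT.leaf ()
      | Sum.inr q => FT.mp (Q.rl q p) (sft Q c Z cls n q)) := by
  intro j
  induction j with
  | zero =>
    intro p
    simp only [stop, FT.bind_leaf, Nat.zero_add]
    rw [Q.rl_self, FT.mp_refl]
  | succ j ih =>
    intro p
    rw [show j + 1 + n = (j + n) + 1 by omega, sft_succ, stop_succ, FT.bind_node]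
    congr 1
    funext k
    by_cases hl : Q.lf p
    · rw [if_pos hl, if_pos hl]; rfl
    · rw [if_neg hl, if_neg hl, ih, FT.mp_bind]
      congr 1
      funext i
      match i with
      | Sum.inl b => rfl
      | Sum.inr q =>
        simp only
        rw [FT.mp_trans, Q.rl_cons]

/-! ### admissibility -/

/-- admissible label functions of a state for the cut-off field -/
structure LabF (Q : Pa E) (c0 : ℝ) (c : List ℕ → E → ℝ) (Z : List ℕ → Set E)
    (cls : List ℕ → E → ℕ) : Prop where
  ok : ∀ p, NodeOK c0 (Q.W p) (c p) (Z p) (cls p)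

lemma above_sft (n : ℕ) (p : List ℕ) : FT.Above (Q.W p) (sft Q c Z cls n p) := by
  cases n with
  | zero => trivial
  | succ n => exact le_rfl

lemma above_stop (n : ℕ) (p : List ℕ) : FT.Above (Q.W p) (stop Q c Z cls n p) := by
  cases n with
  | zero => trivial
  | succ n => exact le_rfl

/-- **the field tree of a state is admissible.** -/
theorem good_sft {c0 : ℝ} (hQ : Q.Ok) (hL : LabF Q c0 c Z cls) : ∀ (n : ℕ) (p : List ℕ),
    FT.Good c0 (sft Q c Z cls n p) := by
  intro n
  induction n with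
  | zero => intro p; trivial
  | succ n ih =>
    intro p
    refine ⟨hL.ok p, fun k => ?_, fun k => ?_⟩
    · simp only
      split_ifs
      · trivial
      · exact FT.above_mp_of (hQ.fix k p) ((above_sft n (k :: p)).mono (hQ.le k p))
    · simp only
      split_ifs
      · trivial
      · exact FT.good_mp (ih (k :: p))

theorem good_stop {c0 : ℝ} (hQ : Q.Ok) (hL : LabF Q c0 c Z cls) : ∀ (n : ℕ) (p : List ℕ),
    FT.Good c0 (stop Q c Z cls n p) := by
  intro n
  induction n with
  | zero => intro p; trivial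
  | succ n ih =>
    intro p
    refine ⟨hL.ok p, fun k => ?_, fun k => ?_⟩
    · simp only
      split_ifs
      · trivial
      · exact FT.above_mp_of (hQ.fix k p) ((above_stop n (k :: p)).mono (hQ.le k p))
    · simp only
      split_ifs
      · trivial
      · exact FT.good_mp (ih (k :: p))

lemma im_orth (R : E ≃ₗᵢ[ℝ] E) (v : E) : im R (ℝ ∙ v)ᗮ = (ℝ ∙ (R v))ᗮ := im_span R v

/-- **all label spaces are orthogonal to the word.** -/
theorem under_sft {w : List ℕ → E} (hw : Wd Q w) : ∀ (n : ℕ) (p : List ℕ),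
    FT.Under (ℝ ∙ (w p))ᗮ (sft Q c Z cls n p) := by
  intro n
  induction n with
  | zero => intro p; trivial
  | succ n ih =>
    intro p
    refine ⟨?_, fun k => ?_⟩
    · intro x hx
      rw [Submodule.mem_orthogonal_singleton_iff_inner_left]
      exact (Submodule.mem_orthogonal _ _).1 (hw.perp p) x hx
    · simp only
      split_ifs
      · trivial
      · have := FT.under_mp (R := Q.P (k :: p)) (ih (k :: p))
        rwa [im_span, hw.eq] at this

/-! ### one level of the recursion in node coordinates -/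

/-- the field below `p` in node coordinates -/
noncomputable def fN (Q : Pa E) (c : List ℕ → E → ℝ) (Z : List ℕ → Set E)
    (cls : List ℕ → E → ℕ) (n : ℕ) (p : List ℕ) (g : E → ℝ) : E → ℝ :=
  FT.fl (sft Q c Z cls n p) (fun _ => g)

/-- the field of the children of `p` in the coordinates of `p` -/
noncomputable def fC (Q : Pa E) (c : List ℕ → E → ℝ) (Z : List ℕ → Set E)
    (cls : List ℕ → E → ℕ) (n : ℕ) (p : List ℕ) (g : E → ℝ) (x : E) : ℝ :=
  if Q.lf p then g x else
    fN Q c Z cls n (cls p x :: p) (fun y => g (Q.P (cls p x :: p) y)) ((Q.P (cls p x :: p)).symm x)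

lemma fC_eq (n : ℕ) (p : List ℕ) (g : E → ℝ) (x : E) :
    FT.fl (if Q.lf p then .leaf () else
      FT.mp (Q.P (cls p x :: p)) (sft Q c Z cls n (cls p x :: p))) (fun _ => g) x
      = fC Q c Z cls n p g x := by
  unfold fC
  by_cases hl : Q.lf p
  · rw [if_pos hl, if_pos hl]; rfl
  · rw [if_neg hl, if_neg hl, FT.fl_mp']
    rfl

theorem fN_succ (n : ℕ) (p : List ℕ) (g : E → ℝ) (x : E) :
    fN Q c Z cls (n + 1) p g x = if x ∈ Z p then 1 else
      phi (c p x) (fr (Q.W p) (fC Q c Z cls n p g) x) * fC Q c Z cls n p g x := by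
  unfold fN
  rw [sft_succ, FT.fl_node]
  have e : FT.val (Q.W p) (cls p) (fun k => if Q.lf p then .leaf () else
      FT.mp (Q.P (k :: p)) (sft Q c Z cls n (k :: p))) (fun _ => g) x
      = fr (Q.W p) (fC Q c Z cls n p g) x := by
    unfold FT.val
    congr 1
    funext y
    exact fC_eq n p g y
  rw [e, fC_eq]

/-! ### the children in node coordinates -/

/-- the child `k` of `p` as a tree in the coordinates of `p` -/
noncomputable def ch (Q : Pa E) (c : List ℕ → E → ℝ) (Z : List ℕ → Set E)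
    (cls : List ℕ → E → ℕ) (n : ℕ) (p : List ℕ) (k : ℕ) : FT E Unit :=
  if Q.lf p then .leaf () else FT.mp (Q.P (k :: p)) (sft Q c Z cls n (k :: p))

lemma sft_succ' (n : ℕ) (p : List ℕ) : sft Q c Z cls (n + 1) p
    = .node (Q.W p) (c p) (Z p) (cls p) (ch Q c Z cls n p) := rfl

section child

variable (n : ℕ) (p : List ℕ) (k : ℕ) (g : Unit → E → ℝ) (x : E)

lemma fl_ch : FT.fl (ch Q c Z cls n p k) g x = if Q.lf p then g () x else
    FT.fl (sft Q c Z cls n (k :: p)) (fun i y => g i (Q.P (k :: p) y)) ((Q.P (k :: p)).symm x) := by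
  unfold ch
  split_ifs
  · rfl
  · have := FT.fl_mp (R := Q.P (k :: p)) (sft Q c Z cls n (k :: p)) g ((Q.P (k :: p)).symm x)
    rwa [LinearIsometryEquiv.apply_symm_apply] at this

lemma wt_ch : FT.wt (ch Q c Z cls n p k) g x = if Q.lf p then 1 else
    FT.wt (sft Q c Z cls n (k :: p)) (fun i y => g i (Q.P (k :: p) y)) ((Q.P (k :: p)).symm x) := by
  unfold ch
  split_ifs
  · rfl
  · have := FT.wt_mp (R := Q.P (k :: p)) (sft Q c Z cls n (k :: p)) g ((Q.P (k :: p)).symm x)
    rwa [LinearIsometryEquiv.apply_symm_apply] at this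

lemma kt_ch : FT.kt (ch Q c Z cls n p k) g x = if Q.lf p then 0 else
    FT.kt (sft Q c Z cls n (k :: p)) (fun i y => g i (Q.P (k :: p) y)) ((Q.P (k :: p)).symm x) := by
  unfold ch
  split_ifs
  · rfl
  · have := FT.kt_mp (R := Q.P (k :: p)) (sft Q c Z cls n (k :: p)) g ((Q.P (k :: p)).symm x)
    rwa [LinearIsometryEquiv.apply_symm_apply] at this

lemma sl_ch : FT.sl (ch Q c Z cls n p k) g x = if Q.lf p then 1 else
    FT.sl (sft Q c Z cls n (k :: p)) (fun i y => g i (Q.P (k :: p) y)) ((Q.P (k :: p)).symm x) := by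
  unfold ch
  split_ifs
  · rfl
  · have := FT.sl_mp (R := Q.P (k :: p)) (sft Q c Z cls n (k :: p)) g ((Q.P (k :: p)).symm x)
    rwa [LinearIsometryEquiv.apply_symm_apply] at this

lemma hid_ch : FT.hid (ch Q c Z cls n p k) g x = if Q.lf p then 0 else
    FT.hid (sft Q c Z cls n (k :: p)) (fun i y => g i (Q.P (k :: p) y)) ((Q.P (k :: p)).symm x) := by
  unfold ch
  split_ifs
  · exact FT.hid_leaf () g x
  · have := FT.hid_mp (R := Q.P (k :: p)) (sft Q c Z cls n (k :: p)) g ((Q.P (k :: p)).symm x)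
    rwa [LinearIsometryEquiv.apply_symm_apply] at this

lemma al_ch : FT.al (ch Q c Z cls n p k) x = if Q.lf p then 1 else
    FT.al (sft Q c Z cls n (k :: p)) ((Q.P (k :: p)).symm x) := by
  unfold ch
  split_ifs
  · rfl
  · have := FT.al_mp (R := Q.P (k :: p)) (sft Q c Z cls n (k :: p)) ((Q.P (k :: p)).symm x)
    rwa [LinearIsometryEquiv.apply_symm_apply] at this

end child

lemma good_ch {c0 : ℝ} (hQ : Q.Ok) (hL : LabF Q c0 c Z cls) (n : ℕ) (p : List ℕ) (k : ℕ) :
    FT.Good c0 (ch Q c Z cls n p k) := (good_sft hQ hL (n + 1) p).2.2 k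

lemma above_ch {c0 : ℝ} (hQ : Q.Ok) (hL : LabF Q c0 c Z cls) (n : ℕ) (p : List ℕ) (k : ℕ) :
    FT.Above (Q.W p) (ch Q c Z cls n p k) := (good_sft hQ hL (n + 1) p).2.1 k

/-! ### slope expansion -/

namespace FT

/-- all levels visible (payoff `g`) -/
noncomputable def vs : FT E ι → (ι → E → ℝ) → E → ℝ≥0∞
  | leaf _, _ => fun _ => 1
  | node W c Z cls T, g => fun x =>
      (if x ∉ Z ∧ c x < val W cls T g x then 1 else 0) * vs (T (cls x)) g x

/-- all levels visible at the larger of the two values -/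
noncomputable def vsm : FT E ι → (ι → E → ℝ) → (ι → E → ℝ) → E → ℝ≥0∞
  | leaf _, _, _ => fun _ => 1
  | node W c Z cls T, g, g' => fun x =>
      (if x ∉ Z ∧ c x < max (val W cls T g x) (val W cls T g' x) then 1 else 0)
        * vsm (T (cls x)) g g' x

/-- the sum of `16 c_i b^i` along the branch -/
noncomputable def sx (b : ℝ≥0∞) : FT E ι → E → ℝ≥0∞
  | leaf _ => fun _ => 0
  | node W c Z cls T => fun x => ENNReal.ofReal (16 * c x) + b * sx b (T (cls x)) x

lemma sg_le {c : ℝ} (hc0 : 0 ≤ c) (hc : c ≤ 1 / 16) : sg c ≤ 1 + 16 * c := by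
  unfold H654.sg
  rw [div_le_iff₀ (by linarith)]
  nlinarith

lemma sx_node (b : ℝ≥0∞) (W : Submodule ℝ E) (c : E → ℝ) (Z : Set E) (cls : E → ℕ)
    (T : ℕ → FT E ι) (x : E) : sx b (node W c Z cls T) x
      = ENNReal.ofReal (16 * c x) + b * sx b (T (cls x)) x := rfl

lemma vs_node (W : Submodule ℝ E) (c : E → ℝ) (Z : Set E) (cls : E → ℕ)
    (T : ℕ → FT E ι) (g : ι → E → ℝ) (x : E) : vs (node W c Z cls T) g x
      = (if x ∉ Z ∧ c x < val W cls T g x then 1 else 0) * vs (T (cls x)) g x := rfl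

lemma vsm_node (W : Submodule ℝ E) (c : E → ℝ) (Z : Set E) (cls : E → ℕ)
    (T : ℕ → FT E ι) (g g' : ι → E → ℝ) (x : E) : vsm (node W c Z cls T) g g' x
      = (if x ∉ Z ∧ c x < max (val W cls T g x) (val W cls T g' x) then 1 else 0)
        * vsm (T (cls x)) g g' x := rfl

lemma sl_step {s v X b : ℝ≥0∞} {c c0 : ℝ} (h1 : 0 ≤ c) (h2 : c ≤ c0) (hc : c0 ≤ 1 / 16)
    (hb : b = ENNReal.ofReal (1 + 16 * c0)) (hs : s ≤ v * (1 + X)) :
    ENNReal.ofReal (sg c) * s ≤ v * (1 + (ENNReal.ofReal (16 * c) + b * X)) := by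
  have h3 := sg_le h1 (h2.trans hc)
  have h4 : ENNReal.ofReal (sg c) ≤ 1 + ENNReal.ofReal (16 * c) := by
    rw [← ENNReal.ofReal_one, ← ENNReal.ofReal_add zero_le_one (by linarith)]
    exact ENNReal.ofReal_le_ofReal h3
  have h5 : 1 + ENNReal.ofReal (16 * c) ≤ b := by
    rw [hb, ← ENNReal.ofReal_one, ← ENNReal.ofReal_add zero_le_one (by linarith)]
    exact ENNReal.ofReal_le_ofReal (by linarith)
  calc ENNReal.ofReal (sg c) * s ≤ (1 + ENNReal.ofReal (16 * c)) * (v * (1 + X)) :=
        mul_le_mul' h4 hs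
    _ = v * (1 + (ENNReal.ofReal (16 * c) + (1 + ENNReal.ofReal (16 * c)) * X)) := by ring
    _ ≤ _ := by gcongr

/-- **slope expansion** -/
theorem sl_le {c0 : ℝ} {t : FT E ι} {g : ι → E → ℝ} (hT : Good c0 t)
    (hc : c0 ≤ 1 / 16) (x : E) :
    sl t g x ≤ vs t g x * (1 + sx (ENNReal.ofReal (1 + 16 * c0)) t x) := by
  induction t with
  | leaf i => simp [sx, vs]
  | node W c Z cls T ih =>
    obtain ⟨hp, hab, hk⟩ := hT
    rw [sl_node, sx_node, vs_node]
    by_cases hv : x ∉ Z ∧ c x < val W cls T g x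
    · rw [if_pos hv, if_pos hv, one_mul]
      exact sl_step (hp.nonneg x) (hp.le x hv.1) hc rfl (ih _ (hk _))
    · rw [if_neg hv, zero_mul]; exact zero_le

theorem slm_le {c0 : ℝ} {t : FT E ι} {g g' : ι → E → ℝ} (hT : Good c0 t)
    (hc : c0 ≤ 1 / 16) (x : E) :
    slm t g g' x ≤ vsm t g g' x * (1 + sx (ENNReal.ofReal (1 + 16 * c0)) t x) := by
  induction t with
  | leaf i => simp [sx, vsm, slm]
  | node W c Z cls T ih =>
    obtain ⟨hp, hab, hk⟩ := hT
    rw [slm_node W, sx_node, vsm_node]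
    unfold sf
    by_cases hv : x ∉ Z ∧ c x < max (val W cls T g x) (val W cls T g' x)
    · rw [if_pos hv, if_pos hv, one_mul]
      exact sl_step (hp.nonneg x) (hp.le x hv.1) hc rfl (ih _ (hk _))
    · rw [if_neg hv, zero_mul]; exact zero_le

end FT

end Vale.Agent.P262.H713
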