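import Vale.Agent.P262.H713.TMap

/-!
# P262, milestone 2: the label dependent flag of one elementary state (block TREE)

Everything is indexed by the class path `p : List ℕ` (`c :: p` = child of `p` through the class `c`,
`[]` = root).  `W p` is the label space of the node in node coordinates, `P (c :: p)` maps the
coordinates of `c :: p` to the coordinates of `p` and fixes `W p` pointwise.  `kt n p` is the stopping
tree below the node `p` (fuel `n`) in the coordinates of `p`, `ft n p` the field tree.
-/

set_option linter.all false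

open MeasureTheory ProbabilityTheory Set
open scoped ENNReal RealInnerProductSpace

namespace Vale.Agent.P262.H713

open Vale.Agent.P262.H395 Vale.Agent.P262.H395.Tree Vale.Agent.P262.H703

variable {E : Type*} [NormedAddCommGroup E] [InnerProductSpace ℝ E]

/-- path arrays of one state. -/
structure Pa (E : Type*) [NormedAddCommGroup E] [InnerProductSpace ℝ E] where
  W : List ℕ → Submodule ℝ E
  P : List ℕ → (E ≃ₗᵢ[ℝ] E)
  lf : List ℕ → Prop

/-- admissible path arrays. -/
structure Pa.Ok (Q : Pa E) : Prop where
  fix : ∀ c p, Fixes (Q.P (c :: p)) (Q.W p)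
  le : ∀ c p, Q.W p ≤ Q.W (c :: p)

/-- from the coordinates of `p` to the coordinates of the root. -/
noncomputable def Pa.S (Q : Pa E) : List ℕ → (E ≃ₗᵢ[ℝ] E)
  | [] => LinearIsometryEquiv.refl ℝ E
  | c :: p => (Q.P (c :: p)).trans (Q.S p)

@[simp] lemma Pa.S_nil (Q : Pa E) : Q.S [] = LinearIsometryEquiv.refl ℝ E := rfl

lemma Pa.S_cons (Q : Pa E) (c : ℕ) (p : List ℕ) : Q.S (c :: p) = (Q.P (c :: p)).trans (Q.S p) := rfl

/-- from the coordinates of `q` to the coordinates of `p` (used for `q` below `p`). -/
noncomputable def Pa.rl (Q : Pa E) (q p : List ℕ) : E ≃ₗᵢ[ℝ] E := (Q.S q).trans (Q.S p).symm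

lemma Pa.rl_self (Q : Pa E) (p : List ℕ) : Q.rl p p = LinearIsometryEquiv.refl ℝ E := by
  ext x; simp [Pa.rl]

lemma Pa.rl_cons (Q : Pa E) (q : List ℕ) (c : ℕ) (p : List ℕ) :
    (Q.rl q (c :: p)).trans (Q.P (c :: p)) = Q.rl q p := by
  ext x
  simp [Pa.rl, Pa.S_cons]

lemma Pa.rl_one (Q : Pa E) (c : ℕ) (p : List ℕ) : Q.rl (c :: p) p = Q.P (c :: p) := by
  ext x; simp [Pa.rl, Pa.S_cons]

lemma Pa.rl_nil (Q : Pa E) (q : List ℕ) : Q.rl q [] = Q.S q := by
  ext x; rfl

/-! ### the stopping tree -/

open Classical in
/-- the stopping tree below the node `p`, in the coordinates of `p`. -/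
noncomputable def kt (Q : Pa E) (D Z : List ℕ → Set E) (cls : List ℕ → E → ℕ) :
    ℕ → List ℕ → KTree E
  | 0, _ => .leaf
  | n + 1, p => .node (Q.W p) (D p) (Z p) (cls p)
      (fun c => if Q.lf p then .leaf else ktm (Q.P (c :: p)) (kt Q D Z cls n (c :: p)))

/-- never stopped, never killed, in node coordinates. -/
def okp (Q : Pa E) (D Z : List ℕ → Set E) (cls : List ℕ → E → ℕ) : ℕ → List ℕ → E → Prop
  | 0, _, _ => True
  | n + 1, p, x => x ∉ D p ∧ x ∉ Z p ∧
      (Q.lf p ∨ okp Q D Z cls n (cls p x :: p) ((Q.P (cls p x :: p)).symm x))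

/-- never killed along the chain of class `0`, in node coordinates. -/
def frp (Q : Pa E) (Z : List ℕ → Set E) : ℕ → List ℕ → E → Prop
  | 0, _, _ => True
  | n + 1, p, x => x ∉ Z p ∧ (Q.lf p ∨ frp Q Z n (0 :: p) ((Q.P (0 :: p)).symm x))

open Classical in
/-- the field tree below the node `p`, in the coordinates of `p`: caps `cap p` (put `0` at the labels
in the state `ZERO`), killed labels lead to the leaf `false`, other leaves are `true`. -/
noncomputable def ft (Q : Pa E) (cap : List ℕ → E → ℝ≥0∞) (Z : List ℕ → Set E)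
    (cls : List ℕ → E → ℕ) : ℕ → List ℕ → H395.Tree E Bool
  | 0, _ => leaf true
  | n + 1, p => node (Q.W p) (fun x => if x ∈ Z p then 0 else cap p x)
      (fun x => if x ∈ Z p then 0 else cls p x + 1)
      (fun c => match c with
        | 0 => leaf false
        | c + 1 => if Q.lf p then leaf true else tm (Q.P (c :: p)) (ft Q cap Z cls n (c :: p)))

open Classical in
/-- the upper part of the field tree (`k` levels), the leaf `some q` is the node `q`; the leaf
`none` with the flag `b` are the true leaves. -/
noncomputable def ftop (Q : Pa E) (cap : List ℕ → E → ℝ≥0∞) (Z : List ℕ → Set E)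
    (cls : List ℕ → E → ℕ) : ℕ → List ℕ → H395.Tree E (Bool ⊕ List ℕ)
  | 0, p => leaf (Sum.inr p)
  | k + 1, p => node (Q.W p) (fun x => if x ∈ Z p then 0 else cap p x)
      (fun x => if x ∈ Z p then 0 else cls p x + 1)
      (fun c => match c with
        | 0 => leaf (Sum.inl false)
        | c + 1 => if Q.lf p then leaf (Sum.inl true) else
          tm (Q.P (c :: p)) (ftop Q cap Z cls k (c :: p)))

section Meas

variable [FiniteDimensional ℝ E] [MeasurableSpace E] [BorelSpace E]
variable {Q Q' : Pa E} {D Z D' Z' : List ℕ → Set E} {cls cls' : List ℕ → E → ℕ}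
  {cap cap' : List ℕ → E → ℝ≥0∞}

theorem mem_reg_kt : ∀ (n : ℕ) (p : List ℕ) (x : E),
    x ∈ (kt Q D Z cls n p).reg ↔ okp Q D Z cls n p x := by
  classical
  intro n
  induction n with
  | zero => exact fun p x => ⟨fun _ => trivial, fun _ => mem_univ x⟩
  | succ n ih =>
    intro p x
    change (x ∉ D p ∧ x ∉ Z p ∧ x ∈ (if Q.lf p then KTree.leaf else
      ktm (Q.P (cls p x :: p)) (kt Q D Z cls n (cls p x :: p))).reg) ↔ _
    simp only [okp]
    refine and_congr_right fun _ => and_congr_right fun _ => ?_
    by_cases h : Q.lf p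
    · rw [if_pos h]
      exact ⟨fun _ => Or.inl h, fun _ => mem_univ x⟩
    · simp only [h, if_false, false_or]
      rw [reg_ktm, mem_preimage, ih]

theorem mem_frz_kt : ∀ (n : ℕ) (p : List ℕ) (x : E),
    x ∈ (kt Q D Z cls n p).frz ↔ frp Q Z n p x := by
  classical
  intro n
  induction n with
  | zero => exact fun p x => ⟨fun _ => trivial, fun _ => mem_univ x⟩
  | succ n ih =>
    intro p x
    change (x ∉ Z p ∧ x ∈ (if Q.lf p then KTree.leaf else
      ktm (Q.P (0 :: p)) (kt Q D Z cls n (0 :: p))).frz) ↔ _
    simp only [frp]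
    refine and_congr_right fun _ => ?_
    by_cases h : Q.lf p
    · rw [if_pos h]
      exact ⟨fun _ => Or.inl h, fun _ => mem_univ x⟩
    · simp only [h, if_false, false_or]
      rw [frz_ktm, mem_preimage, ih]

/-- two states with the same arrays at `p` and below `p` (the entry `P p` itself may differ). -/
structure Same (Q Q' : Pa E) (Z Z' : List ℕ → Set E) (cls cls' : List ℕ → E → ℕ)
    (p : List ℕ) : Prop where
  W : ∀ r : List ℕ, Q.W (r ++ p) = Q'.W (r ++ p)
  P : ∀ r : List ℕ, r ≠ [] → Q.P (r ++ p) = Q'.P (r ++ p)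
  lf : ∀ r : List ℕ, Q.lf (r ++ p) ↔ Q'.lf (r ++ p)
  Z : ∀ r : List ℕ, Z (r ++ p) = Z' (r ++ p)
  cls : ∀ r : List ℕ, cls (r ++ p) = cls' (r ++ p)

lemma Same.child {p : List ℕ} (h : Same Q Q' Z Z' cls cls' p) (c : ℕ) :
    Same Q Q' Z Z' cls cls' (c :: p) := by
  have e : ∀ r : List ℕ, r ++ c :: p = (r ++ [c]) ++ p := fun r => by simp
  refine ⟨fun r => ?_, fun r hr => ?_, fun r => ?_, fun r => ?_, fun r => ?_⟩
  · rw [e]; exact h.W _
  · rw [e]; exact h.P _ (by simp)
  · rw [e]; exact h.lf _
  · rw [e]; exact h.Z _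
  · rw [e]; exact h.cls _

lemma Same.P_cons {p : List ℕ} (h : Same Q Q' Z Z' cls cls' p) (c : ℕ) :
    Q.P (c :: p) = Q'.P (c :: p) := by
  have := h.P [c] (List.cons_ne_nil _ _)
  simpa using this

/-- the stopping tree below `p` depends only on the arrays at `p` and below `p`. -/
theorem kt_congr : ∀ (n : ℕ) {p : List ℕ} (_ : Same Q Q' Z Z' cls cls' p)
    (_ : ∀ r, D (r ++ p) = D' (r ++ p)), kt Q D Z cls n p = kt Q' D' Z' cls' n p := by
  classical
  intro n
  induction n with
  | zero => intro p h hD; rfl
  | succ n ih =>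
    intro p h hD
    have h1 := h.W []
    have h2 := h.lf []
    have h3 := h.Z []
    have h4 := h.cls []
    have h5 := hD []
    simp only [List.nil_append] at h1 h2 h3 h4 h5
    simp only [kt]
    rw [h1, h3, h4, h5]
    congr 1
    funext c
    by_cases hl : Q.lf p
    · rw [if_pos hl, if_pos (h2.1 hl)]
    · rw [if_neg hl, if_neg (fun h7 => hl (h2.2 h7)), h.P_cons c,
        ih (h.child c) (fun r => by
          have := hD (r ++ [c])
          simpa using this)]

/-- the field tree below `p` depends only on the arrays at `p` and below `p`. -/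
theorem ft_congr : ∀ (n : ℕ) {p : List ℕ} (_ : Same Q Q' Z Z' cls cls' p)
    (_ : ∀ r, cap (r ++ p) = cap' (r ++ p)), ft Q cap Z cls n p = ft Q' cap' Z' cls' n p := by
  classical
  intro n
  induction n with
  | zero => intro p h hD; rfl
  | succ n ih =>
    intro p h hD
    have h1 := h.W []
    have h2 := h.lf []
    have h3 := h.Z []
    have h4 := h.cls []
    have h5 := hD []
    simp only [List.nil_append] at h1 h2 h3 h4 h5
    simp only [ft]
    rw [h1, h3, h4, h5]
    congr 1
    funext c
    cases c with
    | zero => rfl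
    | succ c =>
      simp only
      by_cases hl : Q.lf p
      · rw [if_pos hl, if_pos (h2.1 hl)]
      · rw [if_neg hl, if_neg (fun h7 => hl (h2.2 h7)), h.P_cons c,
          ih (h.child c) (fun r => by
            have := hD (r ++ [c])
            simpa using this)]

/-- the upper part (`k` levels) depends only on the arrays of the upper nodes; the maps `P q` of the
nodes `q` at the depth `k` do not matter. -/
theorem ftop_congr : ∀ (k : ℕ) {p : List ℕ}
    (_ : ∀ r : List ℕ, r.length < k → Q.W (r ++ p) = Q'.W (r ++ p) ∧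
      (Q.lf (r ++ p) ↔ Q'.lf (r ++ p)) ∧ Z (r ++ p) = Z' (r ++ p) ∧
      cls (r ++ p) = cls' (r ++ p) ∧ cap (r ++ p) = cap' (r ++ p))
    (_ : ∀ r : List ℕ, r ≠ [] → r.length < k → Q.P (r ++ p) = Q'.P (r ++ p)),
    ftop Q cap Z cls k p = ftop Q' cap' Z' cls' k p := by
  classical
  intro k
  induction k with
  | zero => intro p _ _; rfl
  | succ k ih =>
    intro p h hP
    obtain ⟨h1, h2, h3, h4, h5⟩ := h [] (by simp)
    simp only [List.nil_append] at h1 h2 h3 h4 h5
    simp only [ftop]
    rw [h1, h3, h4, h5]
    congr 1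
    funext c
    cases c with
    | zero => rfl
    | succ c =>
      simp only
      have hih := ih (p := c :: p) (fun r hr => by
          have := h (r ++ [c]) (by simp; omega)
          simpa using this) (fun r hr hr' => by
          have := hP (r ++ [c]) (by simp) (by simp; omega)
          simpa using this)
      by_cases hl : Q.lf p
      · rw [if_pos hl, if_pos (h2.1 hl)]
      · rw [if_neg hl, if_neg (fun h7 => hl (h2.2 h7))]
        cases k with
        | zero => rfl
        | succ k =>
          have hPc : Q.P (c :: p) = Q'.P (c :: p) := by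
            have := hP [c] (List.cons_ne_nil _ _) (by simp)
            simpa using this
          rw [hPc, hih]

/-- **cutting the field tree at the level of the nodes `q`.** -/
theorem ft_cut (n : ℕ) : ∀ (k : ℕ) (p : List ℕ),
    ft Q cap Z cls (k + n) p = (ftop Q cap Z cls k p).bind (fun i => match i with
      | Sum.inl b => leaf b
      | Sum.inr q => tm (Q.rl q p) (ft Q cap Z cls n q)) := by
  classical
  intro k
  induction k with
  | zero =>
    intro p
    simp only [ftop, bind_leaf, Nat.zero_add]
    rw [Q.rl_self, tm_refl]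
  | succ k ih =>
    intro p
    rw [show k + 1 + n = (k + n) + 1 by omega]
    simp only [ft, ftop, bind_node]
    congr 1
    funext c
    cases c with
    | zero => rfl
    | succ c =>
      simp only
      by_cases hl : Q.lf p
      · rw [if_pos hl, if_pos hl]; rfl
      · rw [if_neg hl, if_neg hl, ih, tm_bind]
        congr 1
        funext i
        match i with
        | Sum.inl b => rfl
        | Sum.inr q =>
          simp only
          rw [tm_trans, Q.rl_cons]

/-! ### admissibility -/

/-- admissible label sets. -/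
structure Lab (Q : Pa E) (D Z : List ℕ → Set E) (cls : List ℕ → E → ℕ) : Prop where
  mD : ∀ p, MeasurableSet (D p)
  cD : ∀ p, KTree.Cyl (Q.W p) (D p)
  cZ : ∀ p, KTree.Cyl (Q.W p) (Z p)
  clZ : ∀ p, IsClosed (Z p)ᶜ
  coZ : ∀ p, Convex ℝ (Z p)ᶜ
  mc : ∀ p, Measurable (cls p)
  ic : ∀ p, Tree.InvN (Q.W p) (cls p)

/-- admissible caps. -/
structure LabC (Q : Pa E) (cap : List ℕ → E → ℝ≥0∞) : Prop where
  m : ∀ p, Measurable (cap p)
  i : ∀ p, Inv (Q.W p) (cap p)

lemma valid_ktm_child {T : KTree E} {c : ℕ} {p : List ℕ} (hQ : Q.Ok) (h : T.Valid (Q.W p)) :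
    (ktm (Q.P (c :: p)) T).Valid (Q.W p) := by
  have := ktm_valid (R := Q.P (c :: p)) h
  rwa [show im (Q.P (c :: p)) (Q.W p) = Q.W p from (hQ.fix c p).map_eq] at this

/-- **the stopping tree of a state is admissible.** -/
theorem valid_kt (hQ : Q.Ok) (hL : Lab Q D Z cls) : ∀ (n : ℕ) (p : List ℕ)
    (W0 : Submodule ℝ E), W0 ≤ Q.W p → (kt Q D Z cls n p).Valid W0 := by
  classical
  intro n
  induction n with
  | zero => intro p W0 h; trivial
  | succ n ih =>
    intro p W0 h
    refine ⟨h, hL.mD p, hL.cD p, hL.cZ p, hL.clZ p, hL.coZ p, hL.mc p, hL.ic p, fun c => ?_⟩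
    change (if Q.lf p then KTree.leaf else ktm (Q.P (c :: p)) (kt Q D Z cls n (c :: p))).Valid _
    split_ifs
    · trivial
    · exact valid_ktm_child hQ (ih (c :: p) _ (hQ.le c p))

/-- words: `w p` is the vector in the coordinates of `p`. -/
structure Wd (Q : Pa E) (w : List ℕ → E) : Prop where
  eq : ∀ c p, Q.P (c :: p) (w (c :: p)) = w p
  perp : ∀ p, w p ∈ (Q.W p)ᗮ

/-- **all label spaces of the tree are orthogonal to the word.** -/
theorem below_kt {w : List ℕ → E} (hw : Wd Q w) : ∀ (n : ℕ) (p : List ℕ),
    (kt Q D Z cls n p).Below (ℝ ∙ (w p))ᗮ := by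
  classical
  intro n
  induction n with
  | zero => intro p; trivial
  | succ n ih =>
    intro p
    refine ⟨?_, fun c => ?_⟩
    · intro x hx
      rw [Submodule.mem_orthogonal_singleton_iff_inner_left]
      exact (Submodule.mem_orthogonal _ _).1 (hw.perp p) x hx
    · change (if Q.lf p then KTree.leaf else
        ktm (Q.P (c :: p)) (kt Q D Z cls n (c :: p))).Below _
      split_ifs
      · trivial
      · have := ktm_below (R := Q.P (c :: p)) (ih (c :: p))
        rwa [im_span, hw.eq] at this

lemma above_ft (n : ℕ) (p : List ℕ) : Above (Q.W p) (ft Q cap Z cls n p) := by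
  cases n with
  | zero => trivial
  | succ n => exact le_rfl

lemma measurableSet_Z (hL : Lab Q D Z cls) (p : List ℕ) : MeasurableSet (Z p) := by
  simpa using (hL.clZ p).measurableSet.compl

/-- **the field tree of a state is admissible.** -/
theorem good_ft (hQ : Q.Ok) (hL : Lab Q D Z cls) (hC : LabC Q cap) : ∀ (n : ℕ) (p : List ℕ),
    Good (ft Q cap Z cls n p) := by
  classical
  intro n
  induction n with
  | zero => intro p; trivial
  | succ n ih =>
    intro p
    have hZ := measurableSet_Z hL p
    refine ⟨Measurable.ite hZ measurable_const (hC.m p), fun x w hw => ?_,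
      Measurable.ite hZ measurable_const ((hL.mc p).add_const 1), fun x w hw => ?_,
      fun c => ?_, fun c => ?_⟩
    · simp only [hL.cZ p x w hw, hC.i p x w hw]
    · simp only [hL.cZ p x w hw, hL.ic p x w hw]
    · cases c with
      | zero => trivial
      | succ c =>
        simp only
        split_ifs
        · trivial
        · exact above_tm_of (hQ.fix c p) ((above_ft n (c :: p)).mono (hQ.le c p))
    · cases c with
      | zero => trivial
      | succ c =>
        simp only
        split_ifs
        · trivial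
        · exact good_tm (ih (c :: p))

lemma capsLe_ft {b : ℝ≥0∞} (hb : ∀ p x, cap p x ≤ b) : ∀ (n : ℕ) (p : List ℕ),
    CapsLe b (ft Q cap Z cls n p) := by
  classical
  intro n
  induction n with
  | zero => intro p; trivial
  | succ n ih =>
    intro p
    refine ⟨fun x => ?_, fun c => ?_⟩
    · simp only
      split_ifs
      · exact zero_le
      · exact hb p x
    · cases c with
      | zero => trivial
      | succ c =>
        simp only
        split_ifs
        · trivial
        · exact capsLe_tm (ih (c :: p))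

/-! ### the field in node coordinates -/

variable {θ : ℝ} {M : ℝ≥0∞}

open Classical in
/-- value of the children at the node `p` (payoffs `f false` killed, `f true` leaves), in the
coordinates of `p`. -/
noncomputable def rvc (Q : Pa E) (cap : List ℕ → E → ℝ≥0∞) (Z : List ℕ → Set E)
    (cls : List ℕ → E → ℕ) (θ : ℝ) (M : ℝ≥0∞) (n : ℕ) (p : List ℕ) (f : Bool → E → ℝ≥0∞) (x : E) :
    ℝ≥0∞ :=
  if x ∈ Z p then f false x else if Q.lf p then f true x else
    rv θ M (ft Q cap Z cls n (cls p x :: p)) (fun b y => f b (Q.P (cls p x :: p) y))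
      ((Q.P (cls p x :: p)).symm x)

lemma rv_ft_succ (n : ℕ) (p : List ℕ) (f : Bool → E → ℝ≥0∞) (x : E) :
    rv θ M (ft Q cap Z cls (n + 1) p) f x
      = tr θ (M * (open Classical in if x ∈ Z p then 0 else cap p x))
          (fib (Q.W p) (rvc Q cap Z cls θ M n p f) x) := by
  classical
  simp only [ft, rv_node]
  congr 2
  funext y
  unfold rvc
  by_cases hy : y ∈ Z p
  · simp only [hy, if_true, rv_leaf]
  · simp only [hy, if_false]
    by_cases hl : Q.lf p
    · simp only [hl, if_true, rv_leaf]
    · simp only [hl, if_false]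
      have := rv_tm (θ := θ) (M := M) (R := Q.P (cls p y :: p)) (ft Q cap Z cls n (cls p y :: p)) f
        ((Q.P (cls p y :: p)).symm y)
      rwa [LinearIsometryEquiv.apply_symm_apply] at this

end Meas

end Vale.Agent.P262.H713
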