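import Vale.Agent.P262.H713.CF1
import Vale.Agent.P262.H713.TreeAt

/-!
# P262, milestone 2: the cut-off field on trees (part 1b): grafting, isometries, soft perturbation
-/

set_option linter.all false

open MeasureTheory ProbabilityTheory Set
open scoped ENNReal RealInnerProductSpace Classical

namespace Vale.Agent.P262.H713

open Vale.Agent.P262.H395 (mix fib Inv measurable_fib fib_mono fib_const fib_add fib_mul
  fib_eq_self inv_fib fib_tower starProjection_mix measurable_mix_right fib_add_right Fixes
  mp_isometry mix_map_isometry)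
open Vale.Agent.P262.H847 (UI)
open Vale.Agent.P262.H654 (tr phi sg Bd InvR fr sg_pos one_le_sg sg_mono tr_zero tr_nonneg tr_le
  sub_tr_le tr_mono tr_slope phi_zero phi_mul phi_nonneg phi_le_one phi_mono measurable_phi
  measurable_tr invR_fr fr_mono fr_const fr_add fr_sub fr_const_mul fr_nonneg fr_mul fr_self
  abs_fr_le fr_tower ofReal_fr max_sub_add)

variable {E : Type*} [NormedAddCommGroup E] [InnerProductSpace ℝ E]
variable [FiniteDimensional ℝ E] [MeasurableSpace E] [BorelSpace E] {ι κ : Type*}

/-! ### real fibre averages under isometries, no hypotheses -/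

lemma fr_im {R : E ≃ₗᵢ[ℝ] E} (W : Submodule ℝ E) (f : E → ℝ) (x : E) :
    fr (im R W) f (R x) = fr W (fun y => f (R y)) x := by
  unfold H654.fr
  have h := (mp_isometry R).integral_comp R.toHomeomorph.measurableEmbedding
    (fun z => f (mix (im R W) (R x) z))
  rw [← h]
  congr 1
  funext z
  rw [mix_map_isometry]

lemma fr_im_symm {R : E ≃ₗᵢ[ℝ] E} (W : Submodule ℝ E) (f : E → ℝ) (y : E) :
    fr (im R W) f y = fr W (fun y => f (R y)) (R.symm y) := by
  rw [← fr_im, LinearIsometryEquiv.apply_symm_apply]

lemma fr_fix {R : E ≃ₗᵢ[ℝ] E} {W : Submodule ℝ E} (h : Fixes R W) (f : E → ℝ) (x : E) :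
    fr W (fun y => f (R y)) x = fr W f x := by
  rw [← fr_im W f x, show im R W = W from h.map_eq]
  exact (invR_fr W f).eq_of (h.proj x)

lemma invR_im {R : E ≃ₗᵢ[ℝ] E} {W : Submodule ℝ E} {a : E → ℝ} (h : InvR W a) :
    InvR (im R W) (fun x => a (R.symm x)) := by
  intro x w hw
  change a (R.symm (x + w)) = a (R.symm x)
  rw [map_add]
  exact h _ _ (symm_mem_orth hw)

namespace FT

/-! ### grafting -/

/-- replace the leaf `i` by the tree `S i` -/
def bind : FT E ι → (ι → FT E κ) → FT E κ
  | leaf i, S => S i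
  | node W c Z cls T, S => node W c Z cls fun k => bind (T k) S

/-- a property of the label space of the last node before each leaf (`W` for the empty path) -/
def Last (P : Submodule ℝ E → ι → Prop) : Submodule ℝ E → FT E ι → Prop
  | W, leaf i => P W i
  | _, node W _ _ _ T => ∀ k, Last P W (T k)

/-- image under an isometry -/
def mp (R : E ≃ₗᵢ[ℝ] E) : FT E ι → FT E ι
  | leaf i => leaf i
  | node W c Z cls T => node (im R W) (fun x => c (R.symm x)) (R.symm ⁻¹' Z)
      (fun x => cls (R.symm x)) fun k => mp R (T k)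

section graft

variable {c0 : ℝ} {W V : Submodule ℝ E} {c : E → ℝ} {Z : Set E} {cls : E → ℕ} {T : ℕ → FT E ι}
  {t : FT E ι} {S : ι → FT E κ} {g g' : ι → E → ℝ} {x y : E}

@[simp] lemma bind_leaf (i : ι) (S : ι → FT E κ) : bind (leaf i) S = S i := rfl
@[simp] lemma bind_node (W : Submodule ℝ E) (c : E → ℝ) (Z : Set E) (cls : E → ℕ)
    (T : ℕ → FT E ι) (S : ι → FT E κ) :
    bind (node W c Z cls T) S = node W c Z cls fun k => bind (T k) S := rfl

lemma fl_bind (t : FT E ι) (S : ι → FT E κ) (g : κ → E → ℝ) (x : E) :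
    fl (t.bind S) g x = fl t (fun i => fl (S i) g) x := by
  induction t generalizing x with
  | leaf i => rfl
  | node W c Z cls T ih =>
    rw [bind_node, fl_node, fl_node]
    unfold val
    simp only [ih]

lemma leafOf_bind (t : FT E ι) (S : ι → FT E κ) (x : E) :
    leafOf (t.bind S) x = leafOf (S (leafOf t x)) x := by
  induction t with
  | leaf i => rfl
  | node W c Z cls T ih => exact ih (cls x)

lemma pay_bind (t : FT E ι) (S : ι → FT E κ) (g : κ → E → ℝ) (x : E) :
    pay (t.bind S) g x = pay t (fun i => pay (S i) g) x := by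
  unfold pay; rw [leafOf_bind]

lemma wt_bind (t : FT E ι) (S : ι → FT E κ) (g : κ → E → ℝ) (x : E) :
    wt (t.bind S) g x = wt t (fun i => fl (S i) g) x * wt (S (leafOf t x)) g x := by
  induction t generalizing x with
  | leaf i => simp [leafOf]
  | node W c Z cls T ih =>
    rw [bind_node, wt_node, wt_node]
    unfold val
    simp only [fl_bind, ih, leafOf]
    split_ifs
    · ring
    · ring

lemma sl_bind (t : FT E ι) (S : ι → FT E κ) (g : κ → E → ℝ) (x : E) :
    sl (t.bind S) g x = sl t (fun i => fl (S i) g) x * sl (S (leafOf t x)) g x := by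
  induction t generalizing x with
  | leaf i => simp [leafOf]
  | node W c Z cls T ih =>
    rw [bind_node, sl_node, sl_node]
    unfold val
    simp only [fl_bind, ih, leafOf, mul_assoc]

lemma al_bind (t : FT E ι) (S : ι → FT E κ) (x : E) :
    al (t.bind S) x = al t x * al (S (leafOf t x)) x := by
  induction t generalizing x with
  | leaf i => simp [leafOf]
  | node W c Z cls T ih =>
    rw [bind_node, al_node, al_node]
    simp only [ih, leafOf]
    split_ifs <;> ring

lemma above_bind (hT : Above W t) (hl : Last (fun V i => Above V (S i)) W t) :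
    Above W (t.bind S) := by
  cases t with
  | leaf i => exact hl
  | node W' c Z cls T => exact hT

lemma good_bind (hT : Good c0 t) (hS : ∀ i, Good c0 (S i)) {W : Submodule ℝ E}
    (hl : Last (fun V i => Above V (S i)) W t) : Good c0 (t.bind S) := by
  induction t generalizing W with
  | leaf i => exact hS i
  | node W' c Z cls T ih =>
    obtain ⟨hp, hab, hk⟩ := hT
    exact ⟨hp, fun k => above_bind (hab k) (hl k), fun k => ih k (hk k) (hl k)⟩

lemma under_bind (hT : Under V t) (hS : ∀ i, Under V (S i)) : Under V (t.bind S) := by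
  induction t with
  | leaf i => exact hS i
  | node W' c Z cls T ih => exact ⟨hT.1, fun k => ih k (hT.2 k)⟩

/-! ### isometries -/

variable {R R' : E ≃ₗᵢ[ℝ] E}

@[simp] lemma mp_leaf (i : ι) : mp R (leaf i : FT E ι) = leaf i := rfl

lemma mp_node (W : Submodule ℝ E) (c : E → ℝ) (Z : Set E) (cls : E → ℕ) (T : ℕ → FT E ι) :
    mp R (node W c Z cls T) = node (im R W) (fun x => c (R.symm x)) (R.symm ⁻¹' Z)
      (fun x => cls (R.symm x)) fun k => mp R (T k) := rfl

lemma mp_refl (t : FT E ι) : mp (LinearIsometryEquiv.refl ℝ E) t = t := by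
  induction t with
  | leaf i => rfl
  | node W c Z cls T ih =>
    rw [mp_node, im_refl]
    congr 1
    funext n
    exact ih n

lemma mp_trans (t : FT E ι) : mp R' (mp R t) = mp (R.trans R') t := by
  induction t with
  | leaf i => rfl
  | node W c Z cls T ih =>
    simp only [mp_node]
    rw [im_trans]
    congr 1
    funext n
    exact ih n

lemma mp_bind (t : FT E ι) (S : ι → FT E κ) :
    mp R (t.bind S) = (mp R t).bind (fun i => mp R (S i)) := by
  induction t with
  | leaf i => rfl
  | node W c Z cls T ih => simp only [bind_node, mp_node, ih]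

lemma nodeOK_mp (h : NodeOK c0 W c Z cls) : NodeOK c0 (im R W) (fun x => c (R.symm x))
    (R.symm ⁻¹' Z) (fun x => cls (R.symm x)) where
  meas := h.meas.comp R.symm.continuous.measurable
  inv := invR_im h.inv
  measZ := h.measZ.preimage R.symm.continuous.measurable
  invZ := by
    intro x w hw
    change R.symm (x + w) ∈ Z ↔ R.symm x ∈ Z
    rw [map_add]
    exact h.invZ _ _ (symm_mem_orth hw)
  nonneg := fun x => h.nonneg _
  le := fun x hx => h.le _ hx
  mcls := h.mcls.comp R.symm.continuous.measurable
  icls := invN_im h.icls R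

lemma above_mp (h : Above W t) : Above (im R W) (mp R t) := by
  cases t with
  | leaf i => trivial
  | node V c Z cls T => exact im_mono R h

lemma above_mp_of (hR : Fixes R W) (h : Above W t) : Above W (mp R t) := by
  have := above_mp (R := R) h
  rwa [show im R W = W from hR.map_eq] at this

lemma under_mp (h : Under V t) : Under (im R V) (mp R t) := by
  induction t with
  | leaf i => trivial
  | node W c Z cls T ih => exact ⟨im_mono R h.1, fun k => ih k (h.2 k)⟩

lemma good_mp (h : Good c0 t) : Good c0 (mp R t) := by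
  induction t with
  | leaf i => trivial
  | node W c Z cls T ih =>
    obtain ⟨hp, hab, hk⟩ := h
    exact ⟨nodeOK_mp hp, fun k => above_mp (hab k), fun k => ih k (hk k)⟩

lemma leafOf_mp (t : FT E ι) (x : E) : leafOf (mp R t) (R x) = leafOf t x := by
  induction t with
  | leaf i => rfl
  | node W c Z cls T ih =>
    change leafOf (mp R (T (cls (R.symm (R x))))) (R x) = leafOf (T (cls x)) x
    rw [LinearIsometryEquiv.symm_apply_apply, ih]

lemma pay_mp (t : FT E ι) (g : ι → E → ℝ) (x : E) :
    pay (mp R t) g (R x) = pay t (fun i y => g i (R y)) x := by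
  unfold pay; rw [leafOf_mp]

lemma fl_mp (t : FT E ι) (g : ι → E → ℝ) (x : E) :
    fl (mp R t) g (R x) = fl t (fun i y => g i (R y)) x := by
  induction t generalizing x with
  | leaf i => rfl
  | node W c Z cls T ih =>
    rw [mp_node, fl_node, fl_node]
    unfold val
    simp only [mem_preimage, LinearIsometryEquiv.symm_apply_apply, fr_im, ih]

/-- the same at an arbitrary point -/
lemma fl_mp' (t : FT E ι) (g : ι → E → ℝ) (y : E) :
    fl (mp R t) g y = fl t (fun i y => g i (R y)) (R.symm y) := by
  rw [← fl_mp, LinearIsometryEquiv.apply_symm_apply]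

lemma val_mp (W : Submodule ℝ E) (cls : E → ℕ) (T : ℕ → FT E ι) (g : ι → E → ℝ) (x : E) :
    val (im R W) (fun x => cls (R.symm x)) (fun k => mp R (T k)) g (R x)
      = val W cls T (fun i y => g i (R y)) x := by
  unfold val
  simp only [LinearIsometryEquiv.symm_apply_apply, fr_im, fl_mp]

lemma wt_mp (t : FT E ι) (g : ι → E → ℝ) (x : E) :
    wt (mp R t) g (R x) = wt t (fun i y => g i (R y)) x := by
  induction t generalizing x with
  | leaf i => rfl
  | node W c Z cls T ih =>
    rw [mp_node, wt_node, wt_node, val_mp]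
    simp only [mem_preimage, LinearIsometryEquiv.symm_apply_apply, ih]

lemma kt_mp (t : FT E ι) (g : ι → E → ℝ) (x : E) :
    kt (mp R t) g (R x) = kt t (fun i y => g i (R y)) x := by
  induction t generalizing x with
  | leaf i => rfl
  | node W c Z cls T ih =>
    rw [mp_node, kt_node, kt_node, val_mp]
    simp only [mem_preimage, LinearIsometryEquiv.symm_apply_apply, ih]

lemma sl_mp (t : FT E ι) (g : ι → E → ℝ) (x : E) :
    sl (mp R t) g (R x) = sl t (fun i y => g i (R y)) x := by
  induction t generalizing x with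
  | leaf i => rfl
  | node W c Z cls T ih =>
    rw [mp_node, sl_node, sl_node, val_mp]
    simp only [mem_preimage, LinearIsometryEquiv.symm_apply_apply, ih]

lemma al_mp (t : FT E ι) (x : E) : al (mp R t) (R x) = al t x := by
  induction t generalizing x with
  | leaf i => rfl
  | node W c Z cls T ih =>
    rw [mp_node, al_node, al_node]
    simp only [mem_preimage, LinearIsometryEquiv.symm_apply_apply, ih]

lemma hid_mp (t : FT E ι) (g : ι → E → ℝ) (x : E) :
    hid (mp R t) g (R x) = hid t (fun i y => g i (R y)) x := by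
  unfold hid
  rw [al_mp, pay_mp, fl_mp]

end graft

/-! ### (P1') -/

section pert

variable {c0 : ℝ} {W V : Submodule ℝ E} {c : E → ℝ} {Z : Set E} {cls : E → ℕ} {T : ℕ → FT E ι}
  {t : FT E ι} {g g' : ι → E → ℝ} {x y : E}

lemma pay_max (t : FT E ι) (g g' : ι → E → ℝ) (x : E) :
    pay t (fun i z => max (g i z) (g' i z)) x = max (pay t g x) (pay t g' x) := rfl

/-- **(P1')** arbitrary changes of the payoffs, `L¹` form -/
theorem fib_abs_fl_sub_le (hc : c0 ≤ 1 / 16) (hg : ∀ i, UI (g i)) (hg' : ∀ i, UI (g' i))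
    (hT : Good c0 t) (hW : Above W t) (x : E) :
    fib W (fun y => ENNReal.ofReal |fl t g' y - fl t g y|) x
      ≤ fib W (fun y => sl t (fun i z => max (g i z) (g' i z)) y
          * ENNReal.ofReal |pay t g' y - pay t g y|) x := by
  set G : ι → E → ℝ := fun i z => max (g i z) (g' i z) with hG
  have hGU : ∀ i, UI (G i) := fun i => H654.UI.max (hg i) (hg' i)
  have a1 : ∀ i z, g i z ≤ G i z := fun i z => le_max_left _ _
  have a2 : ∀ i z, g' i z ≤ G i z := fun i z => le_max_right _ _
  have h1 := fib_fl_sub_le hc hg hGU a1 hT hW x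
  have h2 := fib_fl_sub_le hc hg' hGU a2 hT hW x
  have u := fl_UI hT hc hg
  have u' := fl_UI hT hc hg'
  have U := fl_UI hT hc hGU
  have ms := measurable_sl hT hc hGU
  have p0 := pay_UI hT hg
  have p1 := pay_UI hT hg'
  have p2 := pay_UI hT hGU
  calc fib W (fun y => ENNReal.ofReal |fl t g' y - fl t g y|) x
      ≤ fib W (fun y => ENNReal.ofReal (fl t G y - fl t g y)
          + ENNReal.ofReal (fl t G y - fl t g' y)) x := by
        refine fib_mono (fun y => ?_) x
        have e1 := fl_mono hT hc hg hGU a1 y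
        have e2 := fl_mono hT hc hg' hGU a2 y
        rw [← ENNReal.ofReal_add (by linarith) (by linarith)]
        apply ENNReal.ofReal_le_ofReal
        rw [abs_le]
        constructor <;> linarith
    _ = fib W (fun y => ENNReal.ofReal (fl t G y - fl t g y)) x
          + fib W (fun y => ENNReal.ofReal (fl t G y - fl t g' y)) x :=
        fib_add (U.meas.sub u.meas).ennreal_ofReal x
    _ ≤ fib W (fun y => sl t G y * ENNReal.ofReal (pay t G y - pay t g y)) x
          + fib W (fun y => sl t G y * ENNReal.ofReal (pay t G y - pay t g' y)) x :=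
        add_le_add h1 h2
    _ = fib W (fun y => sl t G y * ENNReal.ofReal (pay t G y - pay t g y)
          + sl t G y * ENNReal.ofReal (pay t G y - pay t g' y)) x :=
        (fib_add (ms.mul (p2.meas.sub p0.meas).ennreal_ofReal) x).symm
    _ = _ := by
        congr 1
        funext y
        have e3 : pay t G y = max (pay t g y) (pay t g' y) := rfl
        rw [← mul_add, ← ENNReal.ofReal_add (by rw [e3]; linarith [le_max_left (pay t g y) (pay t g' y)])
          (by rw [e3]; linarith [le_max_right (pay t g y) (pay t g' y)]), e3, max_sub_add]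

/-! ### (P2) soft perturbation -/

/-- one node: the coefficient is exactly the slope -/
lemma soft_step {c F F' a a' A : ℝ} (hc0 : 0 ≤ c) (hc : c ≤ 1 / 16) (hF : 0 ≤ F) (h : F ≤ F')
    (ha : |a| ≤ F) (hA : |a' - a| ≤ A) (hA' : F' - F ≤ A) :
    |phi c F' * a' - phi c F * a| ≤ (if c < F' then sg c else 0) * A := by
  have hF' : 0 ≤ F' := hF.trans h
  by_cases hv : c < F'
  · rw [if_pos hv]
    have h1 := phi_nonneg hc0 hc hF'
    have h2 := phi_le_one hc0 hc hF'
    have h3 := phi_mono hc0 hc hF h
    have h4 := tr_slope hc0 hc hF h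
    rw [if_pos hv] at h4
    have e1 := phi_mul hc0 hF'
    have e2 := phi_mul hc0 hF
    have h5 := one_le_sg hc0 hc
    have e3 : phi c F' * a' - phi c F * a = phi c F' * (a' - a) + (phi c F' - phi c F) * a := by ring
    rw [e3]
    refine (abs_add_le _ _).trans ?_
    rw [abs_mul, abs_mul, abs_of_nonneg h1, abs_of_nonneg (by linarith : 0 ≤ phi c F' - phi c F)]
    have h6 : phi c F' * |a' - a| ≤ phi c F' * A := mul_le_mul_of_nonneg_left hA h1
    have h7 : (phi c F' - phi c F) * |a| ≤ (phi c F' - phi c F) * F :=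
      mul_le_mul_of_nonneg_left ha (by linarith)
    have h8 : (sg c - phi c F') * (F' - F) ≤ (sg c - phi c F') * A :=
      mul_le_mul_of_nonneg_left hA' (by linarith)
    nlinarith
  · have h0 := not_lt.1 hv
    rw [if_neg hv, phi_zero h0, phi_zero (h.trans h0)]
    simp

/-- the slope factors at the larger of the two values -/
noncomputable def slm : FT E ι → (ι → E → ℝ) → (ι → E → ℝ) → E → ℝ≥0∞
  | leaf _, _, _ => fun _ => 1
  | node W c Z cls T, g, g' => fun x =>
      sf c Z (fun z => max (val W cls T g z) (val W cls T g' z)) x * slm (T (cls x)) g g' x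

/-- the price of the change of the payoffs at the leaf of a point (`W` = last label space) -/
noncomputable def lp (w : E → ℝ) (g g' : ι → E → ℝ) : Submodule ℝ E → FT E ι → E → ℝ≥0∞
  | W, leaf i => fun x => max (ENNReal.ofReal |fr W (fun y => (g' i y - g i y) * w y) x|)
      (ENNReal.ofReal |fr W (fun y => g' i y - g i y) x|)
  | _, node V _ _ cls T => fun x => lp w g g' V (T (cls x)) x

/-- the recursive form of the price -/
noncomputable def sp (w : E → ℝ) (g g' : ι → E → ℝ) : Submodule ℝ E → FT E ι → E → ℝ≥0∞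
  | W, leaf i => fun x => max (ENNReal.ofReal |fr W (fun y => (g' i y - g i y) * w y) x|)
      (ENNReal.ofReal |fr W (fun y => g' i y - g i y) x|)
  | W, node V c Z cls T => fun x =>
      fib W (fun y => sf c Z (fun z => max (val V cls T g z) (val V cls T g' z)) y
        * sp w g g' V (T (cls y)) y) x

variable {w : E → ℝ}

lemma lp_leaf (W : Submodule ℝ E) (i : ι) (x : E) : lp w g g' W (leaf i) x
    = max (ENNReal.ofReal |fr W (fun y => (g' i y - g i y) * w y) x|)
      (ENNReal.ofReal |fr W (fun y => g' i y - g i y) x|) := rfl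

lemma lp_node (W V : Submodule ℝ E) (c : E → ℝ) (Z : Set E) (cls : E → ℕ) (T : ℕ → FT E ι)
    (x : E) : lp w g g' W (node V c Z cls T) x = lp w g g' V (T (cls x)) x := rfl

lemma slm_node (W : Submodule ℝ E) (c : E → ℝ) (Z : Set E) (cls : E → ℕ) (T : ℕ → FT E ι)
    (x : E) : slm (node W c Z cls T) g g' x
      = sf c Z (fun z => max (val W cls T g z) (val W cls T g' z)) x
        * slm (T (cls x)) g g' x := rfl

lemma invR_maxval (W : Submodule ℝ E) (cls : E → ℕ) (T : ℕ → FT E ι) (g g' : ι → E → ℝ) :
    InvR W fun z => max (val W cls T g z) (val W cls T g' z) := by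
  intro x w hw
  simp only [invR_val W cls T g x w hw, invR_val W cls T g' x w hw]

lemma abs_fr_mul_le {f w : E → ℝ} (hf : UI f) (hw : Measurable w) (hw1 : ∀ x, |w x| ≤ 1)
    (W : Submodule ℝ E) (x : E) : |fr W (fun y => f y * w y) x| ≤ fr W f x := by
  have bw : Bd w := ⟨hw, 1, hw1⟩
  refine (abs_fr_le _ x).trans (fr_mono ((Bd.of_UI hf).mul bw).abs (Bd.of_UI hf) (fun y => ?_) x)
  rw [abs_mul, abs_of_nonneg (hf.nonneg y)]
  exact mul_le_of_le_one_right (hf.nonneg y) (hw1 y)

/-- at one node -/
lemma node_soft (hp : NodeOK c0 W c Z cls) (hk : ∀ k, Good c0 (T k)) (hc : c0 ≤ 1 / 16)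
    (hg : ∀ i, UI (g i)) (hg' : ∀ i, UI (g' i)) {w : E → ℝ} (hw : Measurable w)
    (hw1 : ∀ x, |w x| ≤ 1) (y : E) {A : ℝ≥0∞}
    (h1 : ENNReal.ofReal |fr W (fun z => (fl (T (cls z)) g' z - fl (T (cls z)) g z) * w z) y| ≤ A)
    (h2 : ENNReal.ofReal |fr W (fun z => fl (T (cls z)) g' z - fl (T (cls z)) g z) y| ≤ A) :
    ENNReal.ofReal |fr W (fun z => (fl (node W c Z cls T) g' z - fl (node W c Z cls T) g z)
        * w z) y|
      ≤ sf c Z (fun z => max (val W cls T g z) (val W cls T g' z)) y * A := by
  have bw : Bd w := ⟨hw, 1, hw1⟩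
  have u : Good c0 (node W c Z cls T) → True := fun _ => trivial
  have v := flc_UI hp hk hc hg
  have v' := flc_UI hp hk hc hg'
  have F := val_UI hp hk hc hg
  have F' := val_UI hp hk hc hg'
  have e0 : fr W (fun z => (fl (node W c Z cls T) g' z - fl (node W c Z cls T) g z) * w z) y
      = (if y ∈ Z then fr W w y else
          phi (c y) (val W cls T g' y) * fr W (fun z => fl (T (cls z)) g' z * w z) y)
        - (if y ∈ Z then fr W w y else
          phi (c y) (val W cls T g y) * fr W (fun z => fl (T (cls z)) g z * w z) y) := by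
    rw [← fr_fl_mul hp w y, ← fr_fl_mul hp w y]
    have m1 : Measurable (fl (node W c Z cls T) g) :=
      Measurable.ite hp.measZ measurable_const ((measurable_phi hp.meas F.meas).mul v.meas)
    have m2 : Measurable (fl (node W c Z cls T) g') :=
      Measurable.ite hp.measZ measurable_const ((measurable_phi hp.meas F'.meas).mul v'.meas)
    have b : ∀ {k : ι → E → ℝ} (hk' : ∀ i, UI (k i)) (m : Measurable (fl (node W c Z cls T) k)),
        Bd (fl (node W c Z cls T) k) := by
      intro k hk' m
      have vk := flc_UI hp hk hc hk'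
      have Fk := val_UI hp hk hc hk'
      refine ⟨m, 1, fun x => ?_⟩
      rw [fl_node]
      split_ifs with h
      · simp
      · have h3 := phi_nonneg (hp.nonneg x) ((hp.le x h).trans hc) (Fk.nonneg x)
        have h4 := phi_le_one (hp.nonneg x) ((hp.le x h).trans hc) (Fk.nonneg x)
        rw [abs_of_nonneg (mul_nonneg h3 (vk.nonneg x))]
        exact mul_le_one₀ h4 (vk.nonneg x) (vk.le_one x)
    rw [← fr_sub ((b hg' m2).mul bw) ((b hg m1).mul bw)]
    congr 1
    funext z
    ring
  by_cases hz : y ∈ Z
  · rw [e0, if_pos hz, if_pos hz, sub_self]; simp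
  rw [e0, if_neg hz, if_neg hz]
  have hcy := (hp.le y hz).trans hc
  rcases eq_or_ne A ⊤ with hA | hA
  · subst hA
    unfold sf
    by_cases hv : c y < max (val W cls T g y) (val W cls T g' y)
    · rw [if_pos ⟨hz, hv⟩, ENNReal.mul_top]
      · exact le_top
      · have := one_le_ofReal_sg (hp.nonneg y) hcy
        exact (lt_of_lt_of_le zero_lt_one this).ne'
    · have h3 := not_lt.1 hv
      rw [phi_zero ((le_max_left _ _).trans h3), phi_zero ((le_max_right _ _).trans h3)]
      simp
  -- real numbers
  set a := fr W (fun z => fl (T (cls z)) g z * w z) y with ha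
  set a' := fr W (fun z => fl (T (cls z)) g' z * w z) y with ha'
  have d1 : fr W (fun z => (fl (T (cls z)) g' z - fl (T (cls z)) g z) * w z) y = a' - a := by
    rw [ha, ha', ← fr_sub ((Bd.of_UI v').mul bw) ((Bd.of_UI v).mul bw)]
    congr 1
    funext z
    ring
  have d2 : fr W (fun z => fl (T (cls z)) g' z - fl (T (cls z)) g z) y
      = val W cls T g' y - val W cls T g y := fr_sub (Bd.of_UI v') (Bd.of_UI v) y
  rw [d1] at h1
  rw [d2] at h2
  have k1 : |a' - a| ≤ A.toReal := (ENNReal.ofReal_le_iff_le_toReal hA).1 h1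
  have k2 : |val W cls T g' y - val W cls T g y| ≤ A.toReal :=
    (ENNReal.ofReal_le_iff_le_toReal hA).1 h2
  have q1 : |a| ≤ val W cls T g y := abs_fr_mul_le v hw hw1 W y
  have q2 : |a'| ≤ val W cls T g' y := abs_fr_mul_le v' hw hw1 W y
  have key : |phi (c y) (val W cls T g' y) * a' - phi (c y) (val W cls T g y) * a|
      ≤ (if c y < max (val W cls T g y) (val W cls T g' y) then sg (c y) else 0) * A.toReal := by
    rcases le_total (val W cls T g y) (val W cls T g' y) with h | h
    · rw [max_eq_right h]
      exact soft_step (hp.nonneg y) hcy (F.nonneg y) h q1 k1 ((le_abs_self _).trans k2)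
    · rw [max_eq_left h, abs_sub_comm]
      rw [abs_sub_comm] at k1 k2
      exact soft_step (hp.nonneg y) hcy (F'.nonneg y) h q2 k1 ((le_abs_self _).trans k2)
  refine (ENNReal.ofReal_le_ofReal key).trans (le_of_eq ?_)
  unfold sf
  by_cases hv : c y < max (val W cls T g y) (val W cls T g' y)
  · rw [if_pos hv, if_pos ⟨hz, hv⟩, ENNReal.ofReal_mul (sg_pos hcy).le, ENNReal.ofReal_toReal hA]
  · rw [if_neg hv, if_neg (fun hh => hv hh.2)]; simp

lemma ofReal_abs_fr_tower {h : E → ℝ} (hh : Bd h) (hW : W ≤ V) (x : E) :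
    ENNReal.ofReal |fr W h x| ≤ fib W (fun y => ENNReal.ofReal |fr V h y|) x := by
  rw [← fr_tower hW hh x, ← ofReal_fr (hh.fr V).abs (fun _ => abs_nonneg _)]
  exact ENNReal.ofReal_le_ofReal (abs_fr_le _ x)

/-- **(P2), recursive form** -/
theorem pert_sp (hc : c0 ≤ 1 / 16) (hg : ∀ i, UI (g i)) (hg' : ∀ i, UI (g' i))
    (hw : Measurable w) (hw1 : ∀ x, |w x| ≤ 1) : ∀ {t : FT E ι} (_ : Good c0 t)
    {W : Submodule ℝ E} (_ : Above W t) (x : E),
    max (ENNReal.ofReal |fr W (fun y => (fl t g' y - fl t g y) * w y) x|)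
      (ENNReal.ofReal |fr W (fun y => fl t g' y - fl t g y) x|) ≤ sp w g g' W t x := by
  intro t
  induction t with
  | leaf i => intro _ W _ x; exact le_rfl
  | node V c Z cls T ih =>
    intro hT W hW x
    have hTT := hT
    obtain ⟨hp, hab, hk⟩ := hT
    have u := fl_UI hTT hc hg
    have u' := fl_UI hTT hc hg'
    have bw : Bd w := ⟨hw, 1, hw1⟩
    have bd := (Bd.of_UI u').sub (Bd.of_UI u)
    have hA : ∀ y, max (ENNReal.ofReal |fr V (fun z => (fl (T (cls z)) g' z
        - fl (T (cls z)) g z) * w z) y|) (ENNReal.ofReal |fr V (fun z => fl (T (cls z)) g' z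
        - fl (T (cls z)) g z) y|) ≤ sp w g g' V (T (cls y)) y := by
      intro y
      rw [fr_sel hp.icls (fun k z => (fl (T k) g' z - fl (T k) g z) * w z) y,
        fr_sel hp.icls (fun k z => fl (T k) g' z - fl (T k) g z) y]
      exact ih (cls y) (hk _) (hab _) y
    have esp : sp w g g' W (node V c Z cls T) x
        = fib W (fun y => sf c Z (fun z => max (val V cls T g z) (val V cls T g' z)) y
          * sp w g g' V (T (cls y)) y) x := rfl
    rw [esp]
    refine max_le ?_ ?_
    · refine (ofReal_abs_fr_tower (bd.mul bw) hW x).trans (fib_mono (fun y => ?_) x)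
      exact node_soft hp hk hc hg hg' hw hw1 y ((le_max_left _ _).trans (hA y))
        ((le_max_right _ _).trans (hA y))
    · refine (ofReal_abs_fr_tower bd hW x).trans (fib_mono (fun y => ?_) x)
      have h3 := node_soft hp hk hc hg hg' (w := fun _ => 1) measurable_const (by simp) y
        (A := sp w g g' V (T (cls y)) y) (by simpa using (le_max_right _ _).trans (hA y))
        ((le_max_right _ _).trans (hA y))
      simpa using h3

lemma measurable_lp (hc : c0 ≤ 1 / 16) (hg : ∀ i, UI (g i)) (hg' : ∀ i, UI (g' i))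
    (hw : Measurable w) (hw1 : ∀ x, |w x| ≤ 1) (hT : Good c0 t) (W : Submodule ℝ E) :
    Measurable (lp w g g' W t) := by
  induction t generalizing W with
  | leaf i =>
    have bw : Bd w := ⟨hw, 1, hw1⟩
    have bd := (Bd.of_UI (hg' i)).sub (Bd.of_UI (hg i))
    exact (((bd.mul bw).fr W).abs.meas.ennreal_ofReal).max ((bd.fr W).abs.meas.ennreal_ofReal)
  | node V c Z cls T ih =>
    obtain ⟨hp, hab, hk⟩ := hT
    exact H395.Tree.measurable_sel (F := fun k => lp w g g' V (T k)) (fun k => ih k (hk k) V) hp.mcls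

lemma measurable_slm (hT : Good c0 t) (hc : c0 ≤ 1 / 16) (hg : ∀ i, UI (g i))
    (hg' : ∀ i, UI (g' i)) : Measurable (slm t g g') := by
  induction t with
  | leaf i => exact measurable_const
  | node W c Z cls T ih =>
    obtain ⟨hp, hab, hk⟩ := hT
    exact (measurable_sf hp ((val_UI hp hk hc hg).meas.max (val_UI hp hk hc hg').meas)).mul
      (H395.Tree.measurable_sel (F := fun k => slm (T k) g g') (fun k => ih k (hk k)) hp.mcls)

/-- the slopes at the larger value are below the slopes of the larger payoff -/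
lemma slm_le_sl (hT : Good c0 t) (hc : c0 ≤ 1 / 16) (hg : ∀ i, UI (g i)) (hg' : ∀ i, UI (g' i))
    (x : E) : slm t g g' x ≤ sl t (fun i z => max (g i z) (g' i z)) x := by
  induction t with
  | leaf i => exact le_rfl
  | node W c Z cls T ih =>
    obtain ⟨hp, hab, hk⟩ := hT
    have hG : ∀ i, UI (fun z => max (g i z) (g' i z)) := fun i => H654.UI.max (hg i) (hg' i)
    rw [slm_node W, sl_node']
    refine mul_le_mul' (sf_mono ?_) (ih _ (hk _))
    exact max_le (val_mono hp hk hc hg hG (fun i z => le_max_left _ _) x)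
      (val_mono hp hk hc hg' hG (fun i z => le_max_right _ _) x)

/-- the recursive form is the product form -/
lemma sp_eq (hc : c0 ≤ 1 / 16) (hg : ∀ i, UI (g i)) (hg' : ∀ i, UI (g' i))
    (hw : Measurable w) (hw1 : ∀ x, |w x| ≤ 1) : ∀ {t : FT E ι} (_ : Good c0 t)
    {W : Submodule ℝ E} (_ : Above W t) (x : E),
    sp w g g' W t x = fib W (fun y => slm t g g' y * lp w g g' W t y) x := by
  intro t
  induction t with
  | leaf i =>
    intro _ W _ x
    have hi : Inv W (lp w g g' W (leaf i)) := by
      intro y v hv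
      rw [lp_leaf, lp_leaf, invR_fr W _ y v hv, invR_fr W _ y v hv]
    have e : (fun y => slm (leaf i) g g' y * lp w g g' W (leaf i) y) = lp w g g' W (leaf i) := by
      funext y
      change 1 * _ = _
      rw [one_mul]
    rw [e, fib_eq_self hi]
    rfl
  | node V c Z cls T ih =>
    intro hT W hW x
    have hTT := hT
    obtain ⟨hp, hab, hk⟩ := hT
    have m : Measurable fun y => slm (node V c Z cls T) g g' y
        * lp w g g' W (node V c Z cls T) y :=
      (measurable_slm hTT hc hg hg').mul (measurable_lp hc hg hg' hw hw1 hTT W)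
    rw [← fib_tower hW m]
    change fib W (fun y => sf c Z (fun z => max (val V cls T g z) (val V cls T g' z)) y
        * sp w g g' V (T (cls y)) y) x = _
    congr 1
    funext y
    rw [ih (cls y) (hk _) (hab _) y]
    have mk : Measurable fun z => slm (T (cls y)) g g' z * lp w g g' V (T (cls y)) z :=
      (measurable_slm (hk _) hc hg hg').mul (measurable_lp hc hg hg' hw hw1 (hk _) V)
    rw [← fib_mul (H395.inv_const V _) mk]
    apply fib_congr
    intro z hz
    rw [slm_node V, lp_node, hp.icls.eq_of hz, (inv_sf hp (invR_maxval V cls T g g')).eq_of hz]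
    exact (mul_assoc _ _ _).symm

/-- **(P2)** soft perturbation with the exact slope product -/
theorem pert (hc : c0 ≤ 1 / 16) (hg : ∀ i, UI (g i)) (hg' : ∀ i, UI (g' i))
    (hw : Measurable w) (hw1 : ∀ x, |w x| ≤ 1) (hT : Good c0 t) (hW : Above W t) (x : E) :
    ENNReal.ofReal |fr W (fun y => (fl t g' y - fl t g y) * w y) x|
      ≤ fib W (fun y => slm t g g' y * lp w g g' W t y) x := by
  rw [← sp_eq hc hg hg' hw hw1 hT hW x]
  exact (le_max_left _ _).trans (pert_sp hc hg hg' hw hw1 hT hW x)

/-- the mean changes -/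
theorem pert_one (hc : c0 ≤ 1 / 16) (hg : ∀ i, UI (g i)) (hg' : ∀ i, UI (g' i))
    (hT : Good c0 t) (hW : Above W t) (x : E) :
    ENNReal.ofReal |fr W (fl t g') x - fr W (fl t g) x|
      ≤ fib W (fun y => slm t g g' y * lp (fun _ => 0) g g' W t y) x := by
  rw [← sp_eq hc hg hg' measurable_const (by simp) hT hW x,
    ← fr_sub (Bd.of_UI (fl_UI hT hc hg')) (Bd.of_UI (fl_UI hT hc hg))]
  exact (le_max_right _ _).trans (pert_sp hc hg hg' measurable_const (by simp) hT hW x)

end pert

end FT

end Vale.Agent.P262.H713
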