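import Vale.Agent.P262.H703.Field3
import Vale.Agent.P262.H395.KillStar
import Vale.Agent.P262.H395.Iso

/-!
# P262, milestone 2: image of a tree of labels under an isometry (change of coordinates)

`tm R T` (field trees) and `ktm R T` (stopping trees) are the trees in the coordinates reached by the
isometry `R`.  All functions of a tree are equivariant.
-/

set_option linter.all false

open MeasureTheory ProbabilityTheory Set
open scoped ENNReal RealInnerProductSpace

namespace Vale.Agent.P262.H713

open Vale.Agent.P262.H395 Vale.Agent.P262.H395.Tree Vale.Agent.P262.H703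

variable {E : Type*} [NormedAddCommGroup E] [InnerProductSpace ℝ E]

/-- image of a subspace -/
abbrev im (R : E ≃ₗᵢ[ℝ] E) (W : Submodule ℝ E) : Submodule ℝ E :=
  W.map (R.toLinearEquiv : E →ₗ[ℝ] E)

lemma mem_im {R : E ≃ₗᵢ[ℝ] E} {W : Submodule ℝ E} {x : E} : x ∈ im R W ↔ R.symm x ∈ W := by
  constructor
  · rintro ⟨w, hw, rfl⟩
    have : R.symm ((R.toLinearEquiv : E →ₗ[ℝ] E) w) = w := R.symm_apply_apply w
    rw [this]; exact hw
  · intro h
    exact ⟨R.symm x, h, R.apply_symm_apply x⟩

lemma im_refl (W : Submodule ℝ E) : im (LinearIsometryEquiv.refl ℝ E) W = W := by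
  ext x; rw [mem_im]; rfl

lemma im_trans (R S : E ≃ₗᵢ[ℝ] E) (W : Submodule ℝ E) : im S (im R W) = im (R.trans S) W := by
  ext x; rw [mem_im, mem_im, mem_im]; rfl

lemma im_mono (R : E ≃ₗᵢ[ℝ] E) {W V : Submodule ℝ E} (h : W ≤ V) : im R W ≤ im R V :=
  Submodule.map_mono h

lemma inner_symm (R : E ≃ₗᵢ[ℝ] E) (u w : E) : ⟪R u, w⟫ = ⟪u, R.symm w⟫ := by
  conv_lhs => rw [← R.apply_symm_apply w]
  exact R.inner_map_map _ _

lemma symm_mem_orth {R : E ≃ₗᵢ[ℝ] E} {W : Submodule ℝ E} {w : E} (hw : w ∈ (im R W)ᗮ) :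
    R.symm w ∈ Wᗮ := by
  rw [Submodule.mem_orthogonal] at hw ⊢
  intro u hu
  rw [← inner_symm]
  exact hw (R u) ⟨u, hu, rfl⟩

lemma im_span (R : E ≃ₗᵢ[ℝ] E) (v : E) : im R (ℝ ∙ v)ᗮ = (ℝ ∙ (R v))ᗮ := by
  ext x
  rw [mem_im, Submodule.mem_orthogonal_singleton_iff_inner_right,
    Submodule.mem_orthogonal_singleton_iff_inner_right, inner_symm]

/-- image of a field tree -/
def tm {ι : Type*} (R : E ≃ₗᵢ[ℝ] E) : H395.Tree E ι → H395.Tree E ι
  | leaf i => leaf i
  | node W a c T => node (im R W) (fun x => a (R.symm x)) (fun x => c (R.symm x))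
      (fun n => tm R (T n))

section basic

variable [FiniteDimensional ℝ E] [MeasurableSpace E] [BorelSpace E]
variable {ι κ : Type*} {R S : E ≃ₗᵢ[ℝ] E}

@[simp] lemma tm_leaf (i : ι) : tm R (leaf i : H395.Tree E ι) = leaf i := rfl

@[simp] lemma tm_node (W : Submodule ℝ E) (a : E → ℝ≥0∞) (c : E → ℕ) (T : ℕ → H395.Tree E ι) :
    tm R (node W a c T) = node (im R W) (fun x => a (R.symm x)) (fun x => c (R.symm x))
      (fun n => tm R (T n)) := rfl

lemma tm_refl (T : H395.Tree E ι) : tm (LinearIsometryEquiv.refl ℝ E) T = T := by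
  induction T with
  | leaf i => rfl
  | node W a c T ih =>
    rw [tm_node, im_refl]
    congr 1
    funext n
    exact ih n

lemma tm_trans (T : H395.Tree E ι) : tm S (tm R T) = tm (R.trans S) T := by
  induction T with
  | leaf i => rfl
  | node W a c T ih =>
    simp only [tm_node]
    rw [im_trans]
    congr 1
    funext n
    exact ih n

lemma above_im {W : Submodule ℝ E} {T : H395.Tree E ι} (h : Above W T) :
    Above (im R W) (tm R T) := by
  cases T with
  | leaf i => trivial
  | node V a c T => exact im_mono R h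

lemma above_tm_of {W : Submodule ℝ E} {T : H395.Tree E ι} (hR : Fixes R W) (h : Above W T) :
    Above W (tm R T) := by
  have := above_im (R := R) h
  rwa [show im R W = W from hR.map_eq] at this

lemma leafOf_tm (T : H395.Tree E ι) (x : E) : leafOf (tm R T) (R x) = leafOf T x := by
  induction T with
  | leaf i => rfl
  | node W a c T ih =>
    simp only [tm_node, leafOf_node, LinearIsometryEquiv.symm_apply_apply, ih]

lemma pay_tm (T : H395.Tree E ι) (f : ι → E → ℝ≥0∞) (x : E) :
    pay (tm R T) f (R x) = pay T (fun i y => f i (R y)) x := by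
  unfold pay
  rw [leafOf_tm]

lemma tm_bind (T : H395.Tree E ι) (S' : ι → H395.Tree E κ) :
    tm R (T.bind S') = (tm R T).bind (fun i => tm R (S' i)) := by
  induction T with
  | leaf i => rfl
  | node W a c T ih =>
    simp only [bind_node, tm_node, ih]

lemma capsLe_tm {C : ℝ≥0∞} {T : H395.Tree E ι} (h : CapsLe C T) : CapsLe C (tm R T) := by
  induction T with
  | leaf i => trivial
  | node W a c T ih => exact ⟨fun x => h.1 _, fun k => ih k (h.2 k)⟩

lemma rcap_tm (T : H395.Tree E ι) (x : E) : rcap (tm R T) (R x) = rcap T x := by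
  cases T with
  | leaf i => rfl
  | node W a c T =>
    change a (R.symm (R x)) = a x
    rw [LinearIsometryEquiv.symm_apply_apply]

lemma fow_tm {θ : ℝ} {M : ℝ≥0∞} (T : H395.Tree E ι) (x : E) :
    fow θ M (tm R T) (R x) = fow θ M T x := by
  induction T with
  | leaf i => rfl
  | node W a c T ih =>
    simp only [tm_node, fow_node, LinearIsometryEquiv.symm_apply_apply, ih]

lemma tm_injective_bind {T : H395.Tree E ι} : T.bind (fun i => (leaf i : H395.Tree E ι)) = T := by
  induction T with
  | leaf i => rfl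
  | node W a c T ih => simp only [bind_node, ih]

end basic

section KTreeMap

variable [FiniteDimensional ℝ E] [MeasurableSpace E] [BorelSpace E]

/-- image of a stopping tree -/
def ktm (R : E ≃ₗᵢ[ℝ] E) : KTree E → KTree E
  | .leaf => .leaf
  | .node W D Z c T => .node (im R W) (R.symm ⁻¹' D) (R.symm ⁻¹' Z) (fun x => c (R.symm x))
      (fun n => ktm R (T n))

variable {R S : E ≃ₗᵢ[ℝ] E}

lemma ktm_refl (T : KTree E) : ktm (LinearIsometryEquiv.refl ℝ E) T = T := by
  induction T with
  | leaf => rfl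
  | node W D Z c T ih =>
    unfold ktm
    rw [im_refl]
    congr 1
    funext n
    exact ih n

lemma ktm_trans (T : KTree E) : ktm S (ktm R T) = ktm (R.trans S) T := by
  induction T with
  | leaf => rfl
  | node W D Z c T ih =>
    simp only [ktm]
    rw [im_trans]
    congr 1
    funext n
    exact ih n

lemma mem_reg_ktm (T : KTree E) (x : E) : R x ∈ (ktm R T).reg ↔ x ∈ T.reg := by
  induction T with
  | leaf => exact Iff.rfl
  | node W D Z c T ih =>
    change (R.symm (R x) ∉ D ∧ R.symm (R x) ∉ Z ∧ R x ∈ (ktm R (T (c (R.symm (R x))))).reg) ↔ _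
    rw [LinearIsometryEquiv.symm_apply_apply, ih]
    rfl

lemma mem_frz_ktm (T : KTree E) (x : E) : R x ∈ (ktm R T).frz ↔ x ∈ T.frz := by
  induction T with
  | leaf => exact Iff.rfl
  | node W D Z c T ih =>
    change (R.symm (R x) ∉ Z ∧ R x ∈ (ktm R (T 0)).frz) ↔ (x ∉ Z ∧ x ∈ (T 0).frz)
    rw [LinearIsometryEquiv.symm_apply_apply, ih]

lemma reg_ktm (T : KTree E) : (ktm R T).reg = R.symm ⁻¹' T.reg := by
  ext x
  have h := mem_reg_ktm (R := R) T (R.symm x)
  rwa [LinearIsometryEquiv.apply_symm_apply] at h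

lemma frz_ktm (T : KTree E) : (ktm R T).frz = R.symm ⁻¹' T.frz := by
  ext x
  have h := mem_frz_ktm (R := R) T (R.symm x)
  rwa [LinearIsometryEquiv.apply_symm_apply] at h

lemma invS_im {W : Submodule ℝ E} {A : Set E} (h : KTree.Cyl W A) (R : E ≃ₗᵢ[ℝ] E) :
    KTree.Cyl (im R W) (R.symm ⁻¹' A) := by
  intro x w hw
  change R.symm (x + w) ∈ A ↔ R.symm x ∈ A
  rw [map_add]
  exact h _ _ (symm_mem_orth hw)

lemma invN_im {W : Submodule ℝ E} {c : E → ℕ} (h : Tree.InvN W c) (R : E ≃ₗᵢ[ℝ] E) :
    Tree.InvN (im R W) (fun x => c (R.symm x)) := by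
  intro x w hw
  change c (R.symm (x + w)) = c (R.symm x)
  rw [map_add]
  exact h _ _ (symm_mem_orth hw)

end KTreeMap

section meas

variable [FiniteDimensional ℝ E] [MeasurableSpace E] [BorelSpace E]
variable {ι κ : Type*} {R S : E ≃ₗᵢ[ℝ] E}

lemma inv_im {W : Submodule ℝ E} {a : E → ℝ≥0∞} (h : Inv W a) (R : E ≃ₗᵢ[ℝ] E) :
    Inv (im R W) (fun x => a (R.symm x)) := by
  intro x w hw
  change a (R.symm (x + w)) = a (R.symm x)
  rw [map_add]
  exact h _ _ (symm_mem_orth hw)

lemma good_tm {T : H395.Tree E ι} (h : Good T) : Good (tm R T) := by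
  induction T with
  | leaf i => trivial
  | node W a c T ih =>
    obtain ⟨ha, haW, hc, hcW, hab, hg⟩ := h
    exact ⟨ha.comp R.symm.continuous.measurable, inv_im haW R,
      hc.comp R.symm.continuous.measurable, invN_im hcW R, fun k => above_im (hab k),
      fun k => ih k (hg k)⟩

/-- equivariance of fibre averages, no measurability needed -/
lemma fib_im (W : Submodule ℝ E) (f : E → ℝ≥0∞) (x : E) :
    fib (im R W) f (R x) = fib W (fun y => f (R y)) x := by
  unfold fib
  have h := (mp_isometry R).lintegral_comp_emb R.toHomeomorph.measurableEmbedding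
    (fun z => f (mix (im R W) (R x) z))
  rw [← h]
  refine lintegral_congr fun z => ?_
  rw [mix_map_isometry]

/-- the same at an arbitrary point -/
lemma fib_im_symm (W : Submodule ℝ E) (f : E → ℝ≥0∞) (y : E) :
    fib (im R W) f y = fib W (fun y => f (R y)) (R.symm y) := by
  rw [← fib_im, LinearIsometryEquiv.apply_symm_apply]

/-- the same with the function in the old coordinates -/
lemma fib_im' (W : Submodule ℝ E) (f : E → ℝ≥0∞) (x : E) :
    fib (im R W) (fun y => f (R.symm y)) (R x) = fib W f x := by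
  rw [fib_im]
  simp only [LinearIsometryEquiv.symm_apply_apply]

/-- conditioning on labels fixed by `R` does not see `R`, no measurability needed -/
lemma fib_fix {W : Submodule ℝ E} (h : Fixes R W) (f : E → ℝ≥0∞) (x : E) :
    fib W (fun y => f (R y)) x = fib W f x := by
  rw [← fib_im W f x, show im R W = W from h.map_eq]
  exact (inv_fib W f).eq_of (h.proj x)

lemma nest_tm (T : H395.Tree E ι) (f : ι → E → ℝ≥0∞) (x : E) :
    nest (tm R T) f (R x) = nest T (fun i y => f i (R y)) x := by
  induction T generalizing x with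
  | leaf i => rfl
  | node W a c T ih =>
    simp only [tm_node, nest_node, LinearIsometryEquiv.symm_apply_apply, fib_im, ih]

lemma vis_tm (T : H395.Tree E ι) (f : ι → E → ℝ≥0∞) (x : E) :
    vis (tm R T) f (R x) = vis T (fun i y => f i (R y)) x := by
  induction T generalizing x with
  | leaf i => rfl
  | node W a c T ih =>
    simp only [tm_node, vis_node, LinearIsometryEquiv.symm_apply_apply, fib_im, nest_tm, ih]

variable {θ : ℝ} {M : ℝ≥0∞}

lemma rv_tm (T : H395.Tree E ι) (f : ι → E → ℝ≥0∞) (x : E) :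
    rv θ M (tm R T) f (R x) = rv θ M T (fun i y => f i (R y)) x := by
  induction T generalizing x with
  | leaf i => rfl
  | node W a c T ih =>
    simp only [tm_node, rv_node, LinearIsometryEquiv.symm_apply_apply, fib_im, ih]

lemma wt_tm (T : H395.Tree E ι) (f : ι → E → ℝ≥0∞) (x : E) :
    wt θ M (tm R T) f (R x) = wt θ M T (fun i y => f i (R y)) x := by
  induction T generalizing x with
  | leaf i => rfl
  | node W a c T ih =>
    simp only [tm_node, wt_node, LinearIsometryEquiv.symm_apply_apply, fib_im, rv_tm, ih]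

lemma slp_tm (T : H395.Tree E ι) (f : ι → E → ℝ≥0∞) (x : E) :
    slp θ M (tm R T) f (R x) = slp θ M T (fun i y => f i (R y)) x := by
  induction T generalizing x with
  | leaf i => rfl
  | node W a c T ih =>
    simp only [tm_node, slp_node, LinearIsometryEquiv.symm_apply_apply, fib_im, rv_tm, ih]

lemma psum_tm (T : H395.Tree E ι) (f : ι → E → ℝ≥0∞) (x : E) :
    psum θ M (tm R T) f (R x) = psum θ M T (fun i y => f i (R y)) x := by
  induction T generalizing x with
  | leaf i => rfl
  | node W a c T ih =>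
    simp only [tm_node, psum_node, LinearIsometryEquiv.symm_apply_apply, fib_im, rv_tm, ih]

lemma fld_tm (T : H395.Tree E ι) (f : ι → E → ℝ≥0∞) (x : E) :
    fld θ M (tm R T) f (R x) = fld θ M T (fun i y => f i (R y)) x := by
  unfold fld
  rw [wt_tm, pay_tm]

lemma exc_tm (T : H395.Tree E ι) (f : ι → E → ℝ≥0∞) (x : E) :
    exc θ M (tm R T) f (R x) = exc θ M T (fun i y => f i (R y)) x := by
  unfold exc
  rw [fld_tm, pay_tm]

lemma fldR_tm (T : H395.Tree E ι) (f : ι → E → ℝ≥0∞) (x : E) :
    fldR θ M (tm R T) f (R x) = fldR θ M T (fun i y => f i (R y)) x := by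
  unfold fldR
  rw [fld_tm]

lemma accu_tm (T : H395.Tree E ι) (f : ι → E → ℝ≥0∞) (h : E → ℝ≥0∞) (x : E) :
    accu θ M (tm R T) f h (R x) = accu θ M T (fun i y => f i (R y)) (fun y => h (R y)) x := by
  induction T generalizing x with
  | leaf i => rfl
  | node W a c T ih =>
    simp only [tm_node, accu_node, LinearIsometryEquiv.symm_apply_apply, fib_im, rv_tm,
      slp_tm, ih]

lemma maj_tm {k : ℝ≥0∞} {T : H395.Tree E ι} {b : E → ℝ≥0∞} (h : Maj k T b) :
    Maj k (tm R T) (fun x => b (R.symm x)) := by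
  induction T generalizing b with
  | leaf i => trivial
  | node W a c T ih =>
    obtain ⟨h1, h2, b', h3, h4⟩ := h
    refine ⟨h1.comp R.symm.continuous.measurable, fun x => h2 _,
      fun n x => b' n (R.symm x), fun x => ?_, fun i => ih i (h4 i)⟩
    rw [fib_im_symm]
    simp only [LinearIsometryEquiv.symm_apply_apply]
    exact h3 _

lemma small_tm {k : ℝ≥0∞} {T : H395.Tree E ι} (h : Small k T) : Small k (tm R T) := by
  induction T with
  | leaf i => trivial
  | node W a c T ih =>
    refine ⟨fun x => ?_, fun i => ih i (h.2 i)⟩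
    rw [fib_im_symm]
    simp only [LinearIsometryEquiv.symm_apply_apply, rcap_tm]
    exact h.1 _

lemma sick_tm {k : ℝ≥0∞} {g : E → ℝ≥0∞} {T : H395.Tree E ι} (h : Sick k g T) :
    Sick k (fun x => g (R.symm x)) (tm R T) := by
  induction T with
  | leaf i => trivial
  | node W a c T ih =>
    refine ⟨fun x hx => ?_, fun i => ih i (h.2 i)⟩
    obtain ⟨h1, b, h2, h3⟩ := h.1 (R.symm x) hx
    refine ⟨?_, fun y => b (R.symm y), maj_tm h2, ?_⟩
    · rw [fib_im_symm]
      simpa only [LinearIsometryEquiv.symm_apply_apply] using h1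
    · rw [fib_im_symm]
      simpa only [LinearIsometryEquiv.symm_apply_apply] using h3

lemma ktm_valid {T : KTree E} {W0 : Submodule ℝ E} (h : T.Valid W0) :
    (ktm R T).Valid (im R W0) := by
  induction T generalizing W0 with
  | leaf => trivial
  | node W D Z c T ih =>
    obtain ⟨h1, hD, hcD, hcZ, hZ, hZc, hcls, hci, hsub⟩ := h
    refine ⟨im_mono R h1, hD.preimage R.symm.continuous.measurable, invS_im hcD R,
      invS_im hcZ R, ?_, ?_, hcls.comp R.symm.continuous.measurable, invN_im hci R,
      fun n => ih n (hsub n)⟩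
    · rw [← preimage_compl]
      exact hZ.preimage R.symm.continuous
    · rw [← preimage_compl]
      exact hZc.linear_preimage (R.symm.toLinearEquiv : E →ₗ[ℝ] E)

lemma KTree.valid_mono {T : KTree E} {W V : Submodule ℝ E} (hVW : V ≤ W) (h : T.Valid W) :
    T.Valid V := by
  cases T with
  | leaf => trivial
  | node W' D Z c T => exact ⟨hVW.trans h.1, h.2⟩

lemma ktm_below {T : KTree E} {V : Submodule ℝ E} (h : T.Below V) :
    (ktm R T).Below (im R V) := by
  induction T with
  | leaf => trivial
  | node W D Z c T ih => exact ⟨im_mono R h.1, fun n => ih n (h.2 n)⟩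

end meas

end Vale.Agent.P262.H713
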