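import Vale.Agent.P262.H654.FieldC
import Vale.Agent.P262.H713.TMap

/-!
# P262, milestone 2: the cut-off field on trees of labels (part 1)

`FT E ι`: a node carries the label space `W`, `c = M * cap`, the killed set `Z`, the class function
`cls` of the label and the subtrees; a leaf carries an index of a payoff.  The field is
`fl (node ..) g x = if x ∈ Z then 1 else phi (c x) (F x) * fl (T (cls x)) g x`, `F` the mean of the
field of the children over the label.
-/

set_option linter.all false

open MeasureTheory ProbabilityTheory Set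
open scoped ENNReal RealInnerProductSpace Classical

namespace Vale.Agent.P262.H713

open Vale.Agent.P262.H395 (mix fib Inv measurable_fib fib_mono fib_const fib_add fib_mul
  fib_eq_self inv_fib fib_tower starProjection_mix measurable_mix_right fib_add_right)
open Vale.Agent.P262.H847 (UI)
open Vale.Agent.P262.H654 (tr phi sg Bd InvR fr sg_pos one_le_sg sg_mono tr_zero tr_nonneg tr_le
  sub_tr_le tr_mono tr_slope phi_zero phi_mul phi_nonneg phi_le_one phi_mono measurable_phi
  measurable_tr invR_fr fr_mono fr_const fr_add fr_sub fr_const_mul fr_nonneg fr_mul fr_self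
  abs_fr_le fr_tower ofReal_fr)

variable {E : Type*} [NormedAddCommGroup E] [InnerProductSpace ℝ E]

/-- trees of labels for the cut-off field -/
inductive FT (E : Type*) [NormedAddCommGroup E] [InnerProductSpace ℝ E] (ι : Type*) where
  | leaf (i : ι) : FT E ι
  | node (W : Submodule ℝ E) (c : E → ℝ) (Z : Set E) (cls : E → ℕ) (T : ℕ → FT E ι) : FT E ι

/-- the conditions on a node -/
structure NodeOK [MeasurableSpace E] (c0 : ℝ) (W : Submodule ℝ E) (c : E → ℝ) (Z : Set E)
    (cls : E → ℕ) : Prop where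
  meas : Measurable c
  inv : InvR W c
  measZ : MeasurableSet Z
  invZ : ∀ x, ∀ w ∈ Wᗮ, (x + w ∈ Z ↔ x ∈ Z)
  nonneg : ∀ x, 0 ≤ c x
  le : ∀ x, x ∉ Z → c x ≤ c0
  mcls : Measurable cls
  icls : H395.Tree.InvN W cls

variable [FiniteDimensional ℝ E] [MeasurableSpace E] [BorelSpace E] {ι κ : Type*}

/-! ### fibres -/

lemma fr_congr {W : Submodule ℝ E} {f h : E → ℝ} {x : E}
    (e : ∀ y, W.starProjection y = W.starProjection x → f y = h y) : fr W f x = fr W h x := by
  unfold H654.fr
  congr 1
  funext z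
  exact e _ (starProjection_mix W x z)

lemma fib_congr {W : Submodule ℝ E} {f h : E → ℝ≥0∞} {x : E}
    (e : ∀ y, W.starProjection y = W.starProjection x → f y = h y) : fib W f x = fib W h x := by
  unfold H395.fib
  exact lintegral_congr fun z => e _ (starProjection_mix W x z)

lemma fr_sel {W : Submodule ℝ E} {cls : E → ℕ} (hc : H395.Tree.InvN W cls) (F : ℕ → E → ℝ) (x : E) :
    fr W (fun y => F (cls y) y) x = fr W (F (cls x)) x :=
  fr_congr fun y hy => by rw [hc.eq_of hy]

lemma fib_sel' {W : Submodule ℝ E} {cls : E → ℕ} (hc : H395.Tree.InvN W cls) (F : ℕ → E → ℝ≥0∞)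
    (x : E) : fib W (fun y => F (cls y) y) x = fib W (F (cls x)) x :=
  fib_congr fun y hy => by rw [hc.eq_of hy]

lemma measurable_selR {F : ℕ → E → ℝ} (hF : ∀ k, Measurable (F k)) {c : E → ℕ}
    (hc : Measurable c) : Measurable fun y => F (c y) y := by
  have h1 : Measurable fun p : ℕ × E => F p.1 p.2 :=
    measurable_from_prod_countable_right fun k => hF k
  exact h1.comp (hc.prodMk measurable_id)

lemma UI_sel {F : ℕ → E → ℝ} (hF : ∀ k, UI (F k)) {c : E → ℕ} (hc : Measurable c) :
    UI fun y => F (c y) y :=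
  ⟨measurable_selR (fun k => (hF k).meas) hc, fun y => (hF _).nonneg y, fun y => (hF _).le_one y⟩

lemma mem_iff_of {W : Submodule ℝ E} {Z : Set E} (h : ∀ x, ∀ w ∈ Wᗮ, (x + w ∈ Z ↔ x ∈ Z))
    {x y : E} (hxy : W.starProjection y = W.starProjection x) : y ∈ Z ↔ x ∈ Z := by
  have h1 : y - x ∈ Wᗮ := by
    rw [← Submodule.starProjection_apply_eq_zero_iff, map_sub, hxy, sub_self]
  have := h x (y - x) h1
  rw [add_sub_cancel] at this
  exact this

namespace FT

/-- the root space contains `W` -/
def Above (W : Submodule ℝ E) : FT E ι → Prop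
  | leaf _ => True
  | node W' _ _ _ _ => W ≤ W'

/-- admissible trees -/
def Good (c0 : ℝ) : FT E ι → Prop
  | leaf _ => True
  | node W c Z cls T => NodeOK c0 W c Z cls ∧ (∀ k, Above W (T k)) ∧ ∀ k, Good c0 (T k)

/-- the field -/
noncomputable def fl : FT E ι → (ι → E → ℝ) → E → ℝ
  | leaf i, g => g i
  | node W c Z cls T, g => fun x => if x ∈ Z then 1 else
      phi (c x) (fr W (fun y => fl (T (cls y)) g y) x) * fl (T (cls x)) g x

/-- the visible mass of a label (before truncation) -/
noncomputable def val (W : Submodule ℝ E) (cls : E → ℕ) (T : ℕ → FT E ι) (g : ι → E → ℝ) (x : E) :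
    ℝ := fr W (fun y => fl (T (cls y)) g y) x

/-- the index of the leaf of `x` -/
def leafOf : FT E ι → E → ι
  | leaf i, _ => i
  | node _ _ _ cls T, x => leafOf (T (cls x)) x

/-- the payoff at `x` -/
def pay (T : FT E ι) (g : ι → E → ℝ) (x : E) : ℝ := g (leafOf T x) x

/-- alive: never killed -/
def alive : FT E ι → E → Prop
  | leaf _, _ => True
  | node _ _ Z cls T, x => x ∉ Z ∧ alive (T (cls x)) x

/-- the product of the slopes of the visible levels (`0` if some level is killed or not visible),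
the visibility computed with the payoff `g` -/
noncomputable def sl : FT E ι → (ι → E → ℝ) → E → ℝ≥0∞
  | leaf _, _ => fun _ => 1
  | node W c Z cls T, g => fun x =>
      (if x ∉ Z ∧ c x < fr W (fun y => fl (T (cls y)) g y) x then ENNReal.ofReal (sg (c x)) else 0)
        * sl (T (cls x)) g x

section basic

variable {c0 : ℝ} {W V : Submodule ℝ E} {c : E → ℝ} {Z : Set E} {cls : E → ℕ} {T : ℕ → FT E ι}
  {t : FT E ι} {g g' : ι → E → ℝ} {x y : E}

@[simp] lemma fl_leaf (i : ι) (g : ι → E → ℝ) : fl (leaf i) g = g i := rfl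

lemma fl_node (W : Submodule ℝ E) (c : E → ℝ) (Z : Set E) (cls : E → ℕ) (T : ℕ → FT E ι)
    (g : ι → E → ℝ) (x : E) : fl (node W c Z cls T) g x
      = if x ∈ Z then 1 else phi (c x) (val W cls T g x) * fl (T (cls x)) g x := rfl

@[simp] lemma sl_leaf (i : ι) (g : ι → E → ℝ) (x : E) : sl (leaf i) g x = 1 := rfl

lemma sl_node (W : Submodule ℝ E) (c : E → ℝ) (Z : Set E) (cls : E → ℕ) (T : ℕ → FT E ι)
    (g : ι → E → ℝ) (x : E) : sl (node W c Z cls T) g x
      = (if x ∉ Z ∧ c x < val W cls T g x then ENNReal.ofReal (sg (c x)) else 0)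
        * sl (T (cls x)) g x := rfl

@[simp] lemma pay_leaf (i : ι) (g : ι → E → ℝ) (x : E) : pay (leaf i) g x = g i x := rfl

@[simp] lemma pay_node (W : Submodule ℝ E) (c : E → ℝ) (Z : Set E) (cls : E → ℕ) (T : ℕ → FT E ι)
    (g : ι → E → ℝ) (x : E) : pay (node W c Z cls T) g x = pay (T (cls x)) g x := rfl

lemma Above.mono {W W' : Submodule ℝ E} (h : W ≤ W') (hT : Above W' t) : Above W t := by
  cases t with
  | leaf i => trivial
  | node V c Z cls T => exact h.trans hT

lemma invR_val (W : Submodule ℝ E) (cls : E → ℕ) (T : ℕ → FT E ι) (g : ι → E → ℝ) :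
    InvR W (val W cls T g) := invR_fr _ _

lemma fl_UI (hT : Good c0 t) (hc : c0 ≤ 1 / 16) (hg : ∀ i, UI (g i)) : UI (fl t g) := by
  induction t with
  | leaf i => exact hg i
  | node W c Z cls T ih =>
    obtain ⟨hp, hab, hk⟩ := hT
    have h1 : UI fun y => fl (T (cls y)) g y := UI_sel (fun k => ih k (hk k)) hp.mcls
    have hF : UI (val W cls T g) := H654.UI.fr h1 W
    refine ⟨?_, fun x => ?_, fun x => ?_⟩
    · exact Measurable.ite hp.measZ measurable_const ((measurable_phi hp.meas hF.meas).mul h1.meas)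
    · rw [fl_node]
      split_ifs with h
      · exact zero_le_one
      · exact mul_nonneg (phi_nonneg (hp.nonneg x) ((hp.le x h).trans hc) (hF.nonneg x))
          (h1.nonneg x)
    · rw [fl_node]
      split_ifs with h
      · exact le_rfl
      · exact mul_le_one₀ (phi_le_one (hp.nonneg x) ((hp.le x h).trans hc) (hF.nonneg x))
          (h1.nonneg x) (h1.le_one x)

lemma flc_UI (hp : NodeOK c0 W c Z cls) (hk : ∀ k, Good c0 (T k)) (hc : c0 ≤ 1 / 16)
    (hg : ∀ i, UI (g i)) : UI fun y => fl (T (cls y)) g y :=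
  UI_sel (fun k => fl_UI (hk k) hc hg) hp.mcls

lemma val_UI (hp : NodeOK c0 W c Z cls) (hk : ∀ k, Good c0 (T k)) (hc : c0 ≤ 1 / 16)
    (hg : ∀ i, UI (g i)) : UI (val W cls T g) := H654.UI.fr (flc_UI hp hk hc hg) W

lemma fl_mono (hT : Good c0 t) (hc : c0 ≤ 1 / 16) (hg : ∀ i, UI (g i)) (hg' : ∀ i, UI (g' i))
    (h : ∀ i x, g i x ≤ g' i x) (x : E) : fl t g x ≤ fl t g' x := by
  induction t generalizing x with
  | leaf i => exact h i x
  | node W c Z cls T ih =>
    obtain ⟨hp, hab, hk⟩ := hT
    rw [fl_node, fl_node]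
    split_ifs with hx
    · exact le_rfl
    · have h2 : val W cls T g x ≤ val W cls T g' x :=
        fr_mono (Bd.of_UI (flc_UI hp hk hc hg)) (Bd.of_UI (flc_UI hp hk hc hg'))
          (fun y => ih (cls y) (hk _) y) x
      have h3 := phi_mono (hp.nonneg x) ((hp.le x hx).trans hc)
        ((val_UI hp hk hc hg).nonneg x) h2
      exact mul_le_mul h3 (ih _ (hk _) x) ((fl_UI (hk _) hc hg).nonneg x)
        (phi_nonneg (hp.nonneg x) ((hp.le x hx).trans hc) ((val_UI hp hk hc hg').nonneg x))

lemma val_mono (hp : NodeOK c0 W c Z cls) (hk : ∀ k, Good c0 (T k)) (hc : c0 ≤ 1 / 16)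
    (hg : ∀ i, UI (g i)) (hg' : ∀ i, UI (g' i)) (h : ∀ i x, g i x ≤ g' i x) (x : E) :
    val W cls T g x ≤ val W cls T g' x :=
  fr_mono (Bd.of_UI (flc_UI hp hk hc hg)) (Bd.of_UI (flc_UI hp hk hc hg'))
    (fun y => fl_mono (hk _) hc hg hg' h y) x

/-- test functions in the fibre of a node: the field is `phi` times the field of the children -/
lemma fr_fl_mul (hp : NodeOK c0 W c Z cls) (w : E → ℝ) (x : E) :
    fr W (fun y => fl (node W c Z cls T) g y * w y) x
      = if x ∈ Z then fr W w x else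
        phi (c x) (val W cls T g x) * fr W (fun y => fl (T (cls y)) g y * w y) x := by
  split_ifs with hx
  · apply fr_congr
    intro y hy
    rw [fl_node, if_pos ((mem_iff_of hp.invZ hy).2 hx), one_mul]
  · rw [← fr_const_mul]
    apply fr_congr
    intro y hy
    rw [fl_node, if_neg (fun h => hx ((mem_iff_of hp.invZ hy).1 h)), hp.inv.eq_of hy,
      (invR_val W cls T g).eq_of hy]
    ring

/-- **the mean of the field over a label** -/
lemma fr_fl_node (hp : NodeOK c0 W c Z cls) (hk : ∀ k, Good c0 (T k)) (hc : c0 ≤ 1 / 16)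
    (hg : ∀ i, UI (g i)) (x : E) :
    fr W (fl (node W c Z cls T) g) x = if x ∈ Z then 1 else tr (c x) (val W cls T g x) := by
  have h := fr_fl_mul (T := T) (g := g) hp (fun _ => 1) x
  simp only [mul_one] at h
  rw [h]
  split_ifs with hx
  · exact fr_const 1 x
  · exact phi_mul (hp.nonneg x) ((val_UI hp hk hc hg).nonneg x)

/-! ### slopes -/

lemma ofReal_sg_mono {a b : ℝ} (h : a ≤ b) (hb : b ≤ 1 / 16) :
    ENNReal.ofReal (sg a) ≤ ENNReal.ofReal (sg b) := ENNReal.ofReal_le_ofReal (sg_mono h hb)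

/-- the slope factor of a node -/
noncomputable def sf (c : E → ℝ) (Z : Set E) (F : E → ℝ) (x : E) : ℝ≥0∞ :=
  if x ∉ Z ∧ c x < F x then ENNReal.ofReal (sg (c x)) else 0

lemma sl_node' (W : Submodule ℝ E) (c : E → ℝ) (Z : Set E) (cls : E → ℕ) (T : ℕ → FT E ι)
    (g : ι → E → ℝ) (x : E) : sl (node W c Z cls T) g x
      = sf c Z (val W cls T g) x * sl (T (cls x)) g x := rfl

lemma measurable_sf (hp : NodeOK c0 W c Z cls) {F : E → ℝ} (hF : Measurable F) :
    Measurable (sf c Z F) := by
  unfold sf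
  refine Measurable.ite (hp.measZ.compl.inter (measurableSet_lt hp.meas hF)) ?_ measurable_const
  unfold H654.sg
  exact (measurable_const.div (measurable_const.sub (hp.meas.const_mul 8))).ennreal_ofReal

lemma inv_sf (hp : NodeOK c0 W c Z cls) {F : E → ℝ} (hF : InvR W F) : Inv W (sf c Z F) := by
  intro x w hw
  unfold sf
  simp only [hp.invZ x w hw, hp.inv x w hw, hF x w hw]

lemma sf_mono {F F' : E → ℝ} (h : F x ≤ F' x) : sf c Z F x ≤ sf c Z F' x := by
  unfold sf
  by_cases h1 : x ∉ Z ∧ c x < F x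
  · rw [if_pos h1, if_pos ⟨h1.1, h1.2.trans_le h⟩]
  · rw [if_neg h1]; exact zero_le

lemma measurable_sl (hT : Good c0 t) (hc : c0 ≤ 1 / 16) (hg : ∀ i, UI (g i)) :
    Measurable (sl t g) := by
  induction t with
  | leaf i => exact measurable_const
  | node W c Z cls T ih =>
    obtain ⟨hp, hab, hk⟩ := hT
    exact (measurable_sf hp (val_UI hp hk hc hg).meas).mul
      (H395.Tree.measurable_sel (F := fun k => sl (T k) g) (fun k => ih k (hk k)) hp.mcls)

lemma sl_mono (hT : Good c0 t) (hc : c0 ≤ 1 / 16) (hg : ∀ i, UI (g i)) (hg' : ∀ i, UI (g' i))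
    (h : ∀ i x, g i x ≤ g' i x) (x : E) : sl t g x ≤ sl t g' x := by
  induction t with
  | leaf i => exact le_rfl
  | node W c Z cls T ih =>
    obtain ⟨hp, hab, hk⟩ := hT
    rw [sl_node', sl_node']
    exact mul_le_mul' (sf_mono (val_mono hp hk hc hg hg' h x)) (ih _ (hk _))

lemma measurable_leafOf [MeasurableSpace ι] (hT : Good c0 t) : Measurable (leafOf t) := by
  induction t with
  | leaf i => exact measurable_const
  | node W c Z cls T ih =>
    obtain ⟨hp, hab, hk⟩ := hT
    have h1 : Measurable fun p : ℕ × E => leafOf (T p.1) p.2 :=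
      measurable_from_prod_countable_right fun k => ih k (hk k)
    exact h1.comp (hp.mcls.prodMk measurable_id)

lemma pay_UI (hT : Good c0 t) (hg : ∀ i, UI (g i)) : UI (pay t g) := by
  induction t with
  | leaf i => exact hg i
  | node W c Z cls T ih =>
    obtain ⟨hp, hab, hk⟩ := hT
    exact UI_sel (F := fun k => pay (T k) g) (fun k => ih k (hk k)) hp.mcls

lemma slope_step {c F F' : ℝ} {A : ℝ≥0∞} (hc0 : 0 ≤ c) (hc : c ≤ 1 / 16) (hF : 0 ≤ F)
    (h : F ≤ F') (hA : ENNReal.ofReal (F' - F) ≤ A) :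
    ENNReal.ofReal (tr c F' - tr c F)
      ≤ (if c < F' then ENNReal.ofReal (sg c) else 0) * A := by
  have h1 := tr_slope hc0 hc hF h
  by_cases hv : c < F'
  · rw [if_pos hv] at h1 ⊢
    calc ENNReal.ofReal (tr c F' - tr c F) ≤ ENNReal.ofReal (sg c * (F' - F)) :=
          ENNReal.ofReal_le_ofReal h1
      _ = ENNReal.ofReal (sg c) * ENNReal.ofReal (F' - F) :=
          ENNReal.ofReal_mul (sg_pos hc).le
      _ ≤ _ := by gcongr
  · rw [if_neg hv] at h1
    rw [zero_mul] at h1
    rw [ENNReal.ofReal_of_nonpos h1]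
    exact zero_le

/-- **(P1)** monotone changes of the payoffs -/
theorem fib_fl_sub_le (hc : c0 ≤ 1 / 16) (hg : ∀ i, UI (g i)) (hg' : ∀ i, UI (g' i))
    (h : ∀ i x, g i x ≤ g' i x) : ∀ {t : FT E ι} (_ : Good c0 t) {W : Submodule ℝ E}
    (_ : Above W t) (x : E),
    fib W (fun y => ENNReal.ofReal (fl t g' y - fl t g y)) x
      ≤ fib W (fun y => sl t g' y * ENNReal.ofReal (pay t g' y - pay t g y)) x := by
  intro t
  induction t with
  | leaf i => intro _ W _ x; simp
  | node V c Z cls T ih =>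
    intro hT W hW x
    have hTT := hT
    obtain ⟨hp, hab, hk⟩ := hT
    have u := fl_UI hTT hc hg
    have u' := fl_UI hTT hc hg'
    have v := flc_UI hp hk hc hg
    have v' := flc_UI hp hk hc hg'
    have F := val_UI hp hk hc hg
    have F' := val_UI hp hk hc hg'
    have m1 : Measurable fun y => ENNReal.ofReal (fl (node V c Z cls T) g' y
        - fl (node V c Z cls T) g y) := (u'.meas.sub u.meas).ennreal_ofReal
    have m2 : Measurable fun y => sl (node V c Z cls T) g' y *
        ENNReal.ofReal (pay (node V c Z cls T) g' y - pay (node V c Z cls T) g y) :=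
      (measurable_sl hTT hc hg').mul ((pay_UI hTT hg').meas.sub (pay_UI hTT hg).meas).ennreal_ofReal
    rw [← fib_tower hW m1, ← fib_tower hW m2]
    refine fib_mono (fun y => ?_) x
    have b1 : Bd fun y => fl (node V c Z cls T) g' y - fl (node V c Z cls T) g y :=
      (Bd.of_UI u').sub (Bd.of_UI u)
    rw [← ofReal_fr b1 (fun z => sub_nonneg.2 (fl_mono hTT hc hg hg' h z)),
      fr_sub (Bd.of_UI u') (Bd.of_UI u), fr_fl_node hp hk hc hg, fr_fl_node hp hk hc hg']
    by_cases hz : y ∈ Z
    · rw [if_pos hz, if_pos hz, sub_self, ENNReal.ofReal_zero]; exact zero_le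
    rw [if_neg hz, if_neg hz]
    have hle : val V cls T g y ≤ val V cls T g' y := val_mono hp hk hc hg hg' h y
    have hih := ih (cls y) (hk _) (hab _) y
    have hA : ENNReal.ofReal (val V cls T g' y - val V cls T g y)
        ≤ fib V (fun z => sl (T (cls y)) g' z
          * ENNReal.ofReal (pay (T (cls y)) g' z - pay (T (cls y)) g z)) y := by
      refine le_trans (le_of_eq ?_) hih
      have b2 : Bd fun z => fl (T (cls z)) g' z - fl (T (cls z)) g z :=
        (Bd.of_UI v').sub (Bd.of_UI v)
      rw [← fib_sel' hp.icls (fun k z => ENNReal.ofReal (fl (T k) g' z - fl (T k) g z)) y,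
        ← ofReal_fr b2 (fun z => sub_nonneg.2 (fl_mono (hk _) hc hg hg' h z)),
        fr_sub (Bd.of_UI v') (Bd.of_UI v)]
      rfl
    refine (slope_step (hp.nonneg y) ((hp.le y hz).trans hc) (F.nonneg y) hle hA).trans
      (le_of_eq ?_)
    have m3 : Measurable fun z => sl (T (cls y)) g' z
        * ENNReal.ofReal (pay (T (cls y)) g' z - pay (T (cls y)) g z) :=
      (measurable_sl (hk _) hc hg').mul
        ((pay_UI (hk _) hg').meas.sub (pay_UI (hk _) hg).meas).ennreal_ofReal
    have e1 : fib V (fun z => sl (node V c Z cls T) g' z *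
        ENNReal.ofReal (pay (node V c Z cls T) g' z - pay (node V c Z cls T) g z)) y
        = fib V (fun z => sf c Z (val V cls T g') y * (sl (T (cls y)) g' z
          * ENNReal.ofReal (pay (T (cls y)) g' z - pay (T (cls y)) g z))) y := by
      apply fib_congr
      intro z hz'
      rw [sl_node', (inv_sf hp (invR_val V cls T g')).eq_of hz', pay_node, pay_node,
        hp.icls.eq_of hz', mul_assoc]
    rw [e1, fib_mul (H395.inv_const V _) m3]
    congr 1
    unfold sf
    by_cases hv : c y < val V cls T g' y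
    · rw [if_pos hv, if_pos ⟨hz, hv⟩]
    · rw [if_neg hv, if_neg (fun hh => hv hh.2)]

/-! ### weight, killed part, alive indicator, hidden part -/

end basic

/-- the weight (`0` at killed points) -/
noncomputable def wt : FT E ι → (ι → E → ℝ) → E → ℝ
  | leaf _, _ => fun _ => 1
  | node W c Z cls T, g => fun x => if x ∈ Z then 0 else
      phi (c x) (fr W (fun y => fl (T (cls y)) g y) x) * wt (T (cls x)) g x

/-- the killed part -/
noncomputable def kt : FT E ι → (ι → E → ℝ) → E → ℝ
  | leaf _, _ => fun _ => 0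
  | node W c Z cls T, g => fun x => if x ∈ Z then 1 else
      phi (c x) (fr W (fun y => fl (T (cls y)) g y) x) * kt (T (cls x)) g x

/-- the indicator of the points which are never killed -/
noncomputable def al : FT E ι → E → ℝ
  | leaf _ => fun _ => 1
  | node _ _ Z cls T => fun x => if x ∈ Z then 0 else al (T (cls x)) x

/-- the hidden field: `fl + hid = 1 - al * (1 - pay)` -/
noncomputable def hid (t : FT E ι) (g : ι → E → ℝ) (x : E) : ℝ :=
  (1 - al t x * (1 - pay t g x)) - fl t g x

/-- all label spaces of the tree are inside `V` -/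
def Under (V : Submodule ℝ E) : FT E ι → Prop
  | leaf _ => True
  | node W _ _ _ T => W ≤ V ∧ ∀ k, Under V (T k)

section basic2

variable {c0 : ℝ} {W V : Submodule ℝ E} {c : E → ℝ} {Z : Set E} {cls : E → ℕ} {T : ℕ → FT E ι}
  {t : FT E ι} {g g' : ι → E → ℝ} {x y : E}

@[simp] lemma wt_leaf (i : ι) (g : ι → E → ℝ) (x : E) : wt (leaf i) g x = 1 := rfl
@[simp] lemma kt_leaf (i : ι) (g : ι → E → ℝ) (x : E) : kt (leaf i) g x = 0 := rfl
@[simp] lemma al_leaf (i : ι) (x : E) : al (leaf i) x = 1 := rfl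

lemma wt_node (W : Submodule ℝ E) (c : E → ℝ) (Z : Set E) (cls : E → ℕ) (T : ℕ → FT E ι)
    (g : ι → E → ℝ) (x : E) : wt (node W c Z cls T) g x
      = if x ∈ Z then 0 else phi (c x) (val W cls T g x) * wt (T (cls x)) g x := rfl

lemma kt_node (W : Submodule ℝ E) (c : E → ℝ) (Z : Set E) (cls : E → ℕ) (T : ℕ → FT E ι)
    (g : ι → E → ℝ) (x : E) : kt (node W c Z cls T) g x
      = if x ∈ Z then 1 else phi (c x) (val W cls T g x) * kt (T (cls x)) g x := rfl

lemma al_node (W : Submodule ℝ E) (c : E → ℝ) (Z : Set E) (cls : E → ℕ) (T : ℕ → FT E ι)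
    (x : E) : al (node W c Z cls T) x = if x ∈ Z then 0 else al (T (cls x)) x := rfl

/-- the field is weight times payoff plus the killed part -/
lemma fl_eq (t : FT E ι) (g : ι → E → ℝ) (x : E) : fl t g x = wt t g x * pay t g x + kt t g x := by
  induction t with
  | leaf i => simp
  | node W c Z cls T ih =>
    rw [fl_node, wt_node, kt_node, pay_node]
    split_ifs
    · ring
    · rw [ih]; ring

lemma wt_UI (hT : Good c0 t) (hc : c0 ≤ 1 / 16) (hg : ∀ i, UI (g i)) : UI (wt t g) := by
  induction t with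
  | leaf i => exact ⟨measurable_const, fun _ => zero_le_one, fun _ => le_rfl⟩
  | node W c Z cls T ih =>
    obtain ⟨hp, hab, hk⟩ := hT
    have h1 : UI fun y => wt (T (cls y)) g y := UI_sel (fun k => ih k (hk k)) hp.mcls
    have hF := val_UI hp hk hc hg
    refine ⟨?_, fun x => ?_, fun x => ?_⟩
    · exact Measurable.ite hp.measZ measurable_const ((measurable_phi hp.meas hF.meas).mul h1.meas)
    · rw [wt_node]
      split_ifs with h
      · exact le_rfl
      · exact mul_nonneg (phi_nonneg (hp.nonneg x) ((hp.le x h).trans hc) (hF.nonneg x))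
          (h1.nonneg x)
    · rw [wt_node]
      split_ifs with h
      · exact zero_le_one
      · exact mul_le_one₀ (phi_le_one (hp.nonneg x) ((hp.le x h).trans hc) (hF.nonneg x))
          (h1.nonneg x) (h1.le_one x)

lemma kt_UI (hT : Good c0 t) (hc : c0 ≤ 1 / 16) (hg : ∀ i, UI (g i)) : UI (kt t g) := by
  induction t with
  | leaf i => exact ⟨measurable_const, fun _ => le_rfl, fun _ => zero_le_one⟩
  | node W c Z cls T ih =>
    obtain ⟨hp, hab, hk⟩ := hT
    have h1 : UI fun y => kt (T (cls y)) g y := UI_sel (fun k => ih k (hk k)) hp.mcls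
    have hF := val_UI hp hk hc hg
    refine ⟨?_, fun x => ?_, fun x => ?_⟩
    · exact Measurable.ite hp.measZ measurable_const ((measurable_phi hp.meas hF.meas).mul h1.meas)
    · rw [kt_node]
      split_ifs with h
      · exact zero_le_one
      · exact mul_nonneg (phi_nonneg (hp.nonneg x) ((hp.le x h).trans hc) (hF.nonneg x))
          (h1.nonneg x)
    · rw [kt_node]
      split_ifs with h
      · exact le_rfl
      · exact mul_le_one₀ (phi_le_one (hp.nonneg x) ((hp.le x h).trans hc) (hF.nonneg x))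
          (h1.nonneg x) (h1.le_one x)

lemma wt_add_kt_le (hT : Good c0 t) (hc : c0 ≤ 1 / 16) (hg : ∀ i, UI (g i)) (x : E) :
    wt t g x + kt t g x ≤ 1 := by
  induction t with
  | leaf i => simp
  | node W c Z cls T ih =>
    obtain ⟨hp, hab, hk⟩ := hT
    rw [wt_node, kt_node]
    split_ifs with h
    · simp
    · have h1 := phi_le_one (hp.nonneg x) ((hp.le x h).trans hc) ((val_UI hp hk hc hg).nonneg x)
      have h2 := phi_nonneg (hp.nonneg x) ((hp.le x h).trans hc) ((val_UI hp hk hc hg).nonneg x)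
      have h3 := ih (cls x) (hk _)
      have h4 := (wt_UI (hk (cls x)) hc hg).nonneg x
      have h5 := (kt_UI (hk (cls x)) hc hg).nonneg x
      rw [← mul_add]
      exact mul_le_one₀ h1 (by linarith) h3

lemma wt_mono (hT : Good c0 t) (hc : c0 ≤ 1 / 16) (hg : ∀ i, UI (g i)) (hg' : ∀ i, UI (g' i))
    (h : ∀ i x, g i x ≤ g' i x) (x : E) : wt t g x ≤ wt t g' x := by
  induction t with
  | leaf i => exact le_rfl
  | node W c Z cls T ih =>
    obtain ⟨hp, hab, hk⟩ := hT
    rw [wt_node, wt_node]
    split_ifs with hx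
    · exact le_rfl
    · have h3 := phi_mono (hp.nonneg x) ((hp.le x hx).trans hc)
        ((val_UI hp hk hc hg).nonneg x) (val_mono hp hk hc hg hg' h x)
      exact mul_le_mul h3 (ih _ (hk _)) ((wt_UI (hk _) hc hg).nonneg x)
        (phi_nonneg (hp.nonneg x) ((hp.le x hx).trans hc) ((val_UI hp hk hc hg').nonneg x))

lemma kt_mono (hT : Good c0 t) (hc : c0 ≤ 1 / 16) (hg : ∀ i, UI (g i)) (hg' : ∀ i, UI (g' i))
    (h : ∀ i x, g i x ≤ g' i x) (x : E) : kt t g x ≤ kt t g' x := by
  induction t with
  | leaf i => exact le_rfl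
  | node W c Z cls T ih =>
    obtain ⟨hp, hab, hk⟩ := hT
    rw [kt_node, kt_node]
    split_ifs with hx
    · exact le_rfl
    · have h3 := phi_mono (hp.nonneg x) ((hp.le x hx).trans hc)
        ((val_UI hp hk hc hg).nonneg x) (val_mono hp hk hc hg hg' h x)
      exact mul_le_mul h3 (ih _ (hk _)) ((kt_UI (hk _) hc hg).nonneg x)
        (phi_nonneg (hp.nonneg x) ((hp.le x hx).trans hc) ((val_UI hp hk hc hg').nonneg x))

lemma one_le_ofReal_sg {a : ℝ} (ha : 0 ≤ a) (ha' : a ≤ 1 / 16) : 1 ≤ ENNReal.ofReal (sg a) := by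
  rw [← ENNReal.ofReal_one]
  exact ENNReal.ofReal_le_ofReal (one_le_sg ha ha')

/-- the weight is below the slope product -/
lemma wt_le_sl (hT : Good c0 t) (hc : c0 ≤ 1 / 16) (hg : ∀ i, UI (g i)) (x : E) :
    ENNReal.ofReal (wt t g x) ≤ sl t g x := by
  induction t with
  | leaf i => simp
  | node W c Z cls T ih =>
    obtain ⟨hp, hab, hk⟩ := hT
    rw [wt_node, sl_node]
    by_cases hx : x ∈ Z
    · rw [if_pos hx]; simp
    · rw [if_neg hx]
      by_cases hv : c x < val W cls T g x
      · rw [if_pos ⟨hx, hv⟩, ENNReal.ofReal_mul (phi_nonneg (hp.nonneg x) ((hp.le x hx).trans hc)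
          ((val_UI hp hk hc hg).nonneg x))]
        refine mul_le_mul' ?_ (ih _ (hk _))
        refine le_trans ?_ (one_le_ofReal_sg (hp.nonneg x) ((hp.le x hx).trans hc))
        rw [← ENNReal.ofReal_one]
        exact ENNReal.ofReal_le_ofReal (phi_le_one (hp.nonneg x) ((hp.le x hx).trans hc)
          ((val_UI hp hk hc hg).nonneg x))
      · rw [phi_zero (not_lt.1 hv), zero_mul, ENNReal.ofReal_zero]
        exact zero_le

lemma al_UI (hT : Good c0 t) : UI (al t) := by
  induction t with
  | leaf i => exact ⟨measurable_const, fun _ => zero_le_one, fun _ => le_rfl⟩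
  | node W c Z cls T ih =>
    obtain ⟨hp, hab, hk⟩ := hT
    have h1 : UI fun y => al (T (cls y)) y := UI_sel (F := fun k => al (T k)) (fun k => ih k (hk k)) hp.mcls
    refine ⟨Measurable.ite hp.measZ measurable_const h1.meas, fun x => ?_, fun x => ?_⟩
    · rw [al_node]; split_ifs; exacts [le_rfl, h1.nonneg x]
    · rw [al_node]; split_ifs; exacts [zero_le_one, h1.le_one x]

lemma al_eq (t : FT E ι) (x : E) : al t x = if alive t x then 1 else 0 := by
  induction t with
  | leaf i => simp [alive]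
  | node W c Z cls T ih =>
    rw [al_node, ih]
    by_cases h : x ∈ Z
    · simp [alive, h]
    · simp [alive, h]

lemma fl_add_hid (t : FT E ι) (g : ι → E → ℝ) (x : E) :
    fl t g x + hid t g x = 1 - al t x * (1 - pay t g x) := by unfold hid; ring

@[simp] lemma hid_leaf (i : ι) (g : ι → E → ℝ) (x : E) : hid (leaf i) g x = 0 := by
  simp [hid]

lemma hid_node (W : Submodule ℝ E) (c : E → ℝ) (Z : Set E) (cls : E → ℕ) (T : ℕ → FT E ι)
    (g : ι → E → ℝ) (x : E) : hid (node W c Z cls T) g x
      = if x ∈ Z then 0 else hid (T (cls x)) g x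
        + (1 - phi (c x) (val W cls T g x)) * fl (T (cls x)) g x := by
  unfold hid
  rw [al_node, fl_node, pay_node]
  split_ifs
  · ring
  · ring

lemma hid_nonneg (hT : Good c0 t) (hc : c0 ≤ 1 / 16) (hg : ∀ i, UI (g i)) (x : E) :
    0 ≤ hid t g x := by
  induction t with
  | leaf i => simp
  | node W c Z cls T ih =>
    obtain ⟨hp, hab, hk⟩ := hT
    rw [hid_node]
    split_ifs with h
    · exact le_rfl
    · have h1 := phi_le_one (hp.nonneg x) ((hp.le x h).trans hc) ((val_UI hp hk hc hg).nonneg x)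
      exact add_nonneg (ih _ (hk _)) (mul_nonneg (by linarith) ((fl_UI (hk _) hc hg).nonneg x))

lemma hid_UI (hT : Good c0 t) (hc : c0 ≤ 1 / 16) (hg : ∀ i, UI (g i)) : UI (hid t g) := by
  have h1 := fl_UI hT hc hg
  have h2 := al_UI hT
  have h3 := pay_UI hT hg
  refine ⟨?_, hid_nonneg hT hc hg, fun x => ?_⟩
  · exact (measurable_const.sub (h2.meas.mul (measurable_const.sub h3.meas))).sub h1.meas
  · have h4 := h1.nonneg x
    have h5 := mul_nonneg (h2.nonneg x) (by linarith [h3.le_one x] : 0 ≤ 1 - pay t g x)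
    unfold hid
    linarith

/-- the three masses at a label -/
lemma fr_sum (hT : Good c0 t) (hc : c0 ≤ 1 / 16) (hg : ∀ i, UI (g i)) (W : Submodule ℝ E) (x : E) :
    fr W (fl t g) x + fr W (hid t g) x + fr W (fun y => al t y * (1 - pay t g y)) x = 1 := by
  have h1 := Bd.of_UI (fl_UI hT hc hg)
  have h2 := Bd.of_UI (hid_UI hT hc hg)
  have h3 : Bd fun y => al t y * (1 - pay t g y) :=
    (Bd.of_UI (al_UI hT)).mul ((Bd.const 1).sub (Bd.of_UI (pay_UI hT hg)))
  rw [← fr_add h1 h2, ← fr_add (h1.add h2) h3]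
  have e : (fun y => fl t g y + hid t g y + al t y * (1 - pay t g y)) = fun _ => (1:ℝ) := by
    funext y; rw [fl_add_hid]; ring
  rw [e, fr_const]

/-- the mean of the hidden field over a label -/
lemma fr_hid_node (hp : NodeOK c0 W c Z cls) (hk : ∀ k, Good c0 (T k)) (hc : c0 ≤ 1 / 16)
    (hg : ∀ i, UI (g i)) (x : E) :
    fr W (hid (node W c Z cls T) g) x
      = if x ∈ Z then 0 else fr W (fun y => hid (T (cls y)) g y) x
        + (val W cls T g x - tr (c x) (val W cls T g x)) := by
  split_ifs with hx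
  · rw [← fr_const (W := W) 0 x]
    apply fr_congr
    intro y hy
    rw [hid_node, if_pos ((mem_iff_of hp.invZ hy).2 hx)]
  · have b1 : UI fun y => hid (T (cls y)) g y := UI_sel (fun k => hid_UI (hk k) hc hg) hp.mcls
    have b2 := flc_UI hp hk hc hg
    have e : fr W (hid (node W c Z cls T) g) x = fr W (fun y => hid (T (cls y)) g y
        + (1 - phi (c x) (val W cls T g x)) * fl (T (cls y)) g y) x := by
      apply fr_congr
      intro y hy
      rw [hid_node, if_neg (fun h => hx ((mem_iff_of hp.invZ hy).1 h)), hp.inv.eq_of hy,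
        (invR_val W cls T g).eq_of hy]
    rw [e, fr_add (Bd.of_UI b1) ((Bd.of_UI b2).const_mul _), fr_const_mul]
    have h1 := phi_mul (hp.nonneg x) ((val_UI hp hk hc hg).nonneg x)
    change _ + (1 - phi (c x) (val W cls T g x)) * val W cls T g x = _
    rw [← h1]
    ring

/-! ### invariance -/

lemma under_mono {V V' : Submodule ℝ E} (h : V ≤ V') (hT : Under V t) : Under V' t := by
  induction t with
  | leaf i => trivial
  | node W c Z cls T ih => exact ⟨hT.1.trans h, fun k => ih k (hT.2 k)⟩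

lemma leafOf_inv (hT : Good c0 t) (hV : Under V t) {w : E} (hw : w ∈ Vᗮ) (x : E) :
    leafOf t (x + w) = leafOf t x := by
  induction t with
  | leaf i => rfl
  | node W c Z cls T ih =>
    obtain ⟨hp, hab, hk⟩ := hT
    have hw' : w ∈ Wᗮ := Submodule.orthogonal_le hV.1 hw
    change leafOf (T (cls (x + w))) (x + w) = leafOf (T (cls x)) x
    rw [hp.icls x w hw', ih _ (hk _) (hV.2 _)]

lemma wt_inv (hT : Good c0 t) (hV : Under V t) (g : ι → E → ℝ) : InvR V (wt t g) := by
  intro x w hw
  induction t with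
  | leaf i => rfl
  | node W c Z cls T ih =>
    obtain ⟨hp, hab, hk⟩ := hT
    have hw' : w ∈ Wᗮ := Submodule.orthogonal_le hV.1 hw
    rw [wt_node, wt_node, hp.icls x w hw', ih _ (hk _) (hV.2 _), hp.inv x w hw',
      invR_val W cls T g x w hw']
    simp only [hp.invZ x w hw']

lemma kt_inv (hT : Good c0 t) (hV : Under V t) (g : ι → E → ℝ) : InvR V (kt t g) := by
  intro x w hw
  induction t with
  | leaf i => rfl
  | node W c Z cls T ih =>
    obtain ⟨hp, hab, hk⟩ := hT
    have hw' : w ∈ Wᗮ := Submodule.orthogonal_le hV.1 hw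
    rw [kt_node, kt_node, hp.icls x w hw', ih _ (hk _) (hV.2 _), hp.inv x w hw',
      invR_val W cls T g x w hw']
    simp only [hp.invZ x w hw']

lemma al_inv (hT : Good c0 t) (hV : Under V t) : InvR V (al t) := by
  intro x w hw
  induction t with
  | leaf i => rfl
  | node W c Z cls T ih =>
    obtain ⟨hp, hab, hk⟩ := hT
    have hw' : w ∈ Wᗮ := Submodule.orthogonal_le hV.1 hw
    rw [al_node, al_node, hp.icls x w hw', ih _ (hk _) (hV.2 _)]
    simp only [hp.invZ x w hw']

lemma sl_inv (hT : Good c0 t) (hV : Under V t) (g : ι → E → ℝ) : Inv V (sl t g) := by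
  intro x w hw
  induction t with
  | leaf i => rfl
  | node W c Z cls T ih =>
    obtain ⟨hp, hab, hk⟩ := hT
    have hw' : w ∈ Wᗮ := Submodule.orthogonal_le hV.1 hw
    rw [sl_node, sl_node, hp.icls x w hw', ih _ (hk _) (hV.2 _), hp.inv x w hw',
      invR_val W cls T g x w hw']
    simp only [hp.invZ x w hw']

end basic2

end FT

end Vale.Agent.P262.H713
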