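import Vale.Agent.P262.M2.SumInt
import Vale.Agent.P262.M2.Nodes
import Vale.Agent.P262.H108.Gap2

/-!
# P262, milestone 2: integration of the price of an inner rotation

The price seen at a label of the level `l` above the rotating node is an average of a function of
the labels at and below the rotating node.  Integrated over all labels of level `l` it gives the
moment of the hidden part and the throughputs.
-/

set_option linter.all false

open MeasureTheory ProbabilityTheory Set
open scoped ENNReal RealInnerProductSpace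
open Vale.Agent.P262.H118 (Iv st en K2 El2 paths)
open Vale.Agent.P262.H395 (fib mix Inv)

namespace Vale.Agent.P262.M2.Sys

variable {E : Type*} [NormedAddCommGroup E] [InnerProductSpace ℝ E] [FiniteDimensional ℝ E]
  [MeasurableSpace E] [BorelSpace E] (S : Sys E)

/-- number of levels from `p` to the rotating node -/
noncomputable def gpR (p : List ℕ) (m : ℕ) : ℕ := (S.mv.jj m).length - p.length

/-- labels below `p` through the rotating node, counted strictly in between -/
def cntR (p : List ℕ) (m : ℕ) : Set E :=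
  {y | S.nb p m y (S.gpR p m) = S.mv.jj m} ∩ S.OMb p m (S.gpR p m - 1)

/-- not killed and not a leaf at the first `i` levels from `q` on -/
def alqR (q : List ℕ) (m i : ℕ) : Set E :=
  {y | ∀ k < i, y ∉ S.Z (S.nb q m y k) m ∧ ¬ S.Leaf (S.nb q m y k) m}

/-- displacement at and below the rotating node -/
noncomputable def RXR (C a : ℝ) (q : List ℕ) (m : ℕ) (y : E) : ℝ≥0∞ :=
  ∑ i ∈ Finset.range (Module.finrank ℝ E), ENNReal.ofReal (a ^ i) *
    (iw (S.alqR q m i) y * (ENNReal.ofReal C * S.xd (S.nb q m y i) m y))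

/-- the price of an inner rotation at a label of `p` -/
noncomputable def GinR (C a : ℝ) (H : ℕ → E → ℝ≥0∞) (p : List ℕ) (m : ℕ) (x : E) : ℝ≥0∞ :=
  fib (S.W p m) (fun y => iw (S.cntR p m) y *
    (ENNReal.ofReal (a ^ S.gpR p m) * S.RXR C a (S.mv.jj m) m y)) x +
  fib (S.W p m) (fun y => iw (S.cntR p m) y *
    (ENNReal.ofReal (a ^ S.gpR p m) * H m y)) x

variable {S}

lemma iw_inter_R (s t : Set E) (x : E) : iw (s ∩ t) x = iw s x * iw t x := by
  unfold iw
  by_cases hs : x ∈ s <;> by_cases ht : x ∈ t <;> simp [hs, ht]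

lemma iw_le_R {s t : Set E} {x : E} (h : x ∈ s → x ∈ t) : iw s x ≤ iw t x := by
  unfold iw
  by_cases hs : x ∈ s
  · rw [indicator_of_mem hs, indicator_of_mem (h hs)]
  · rw [indicator_of_notMem hs]; exact zero_le

lemma iw_le_one_R (s : Set E) (x : E) : iw s x ≤ 1 := indicator_le_one' _ x

/-! ### label functions of level `l` -/

/-- **tower with a label function of level `l` as a weight** -/
theorem int_mul_fibL {m : ℕ} (hm : S.mv.tm m < S.T) (l : ℕ) {g : E → ℝ≥0∞}
    {F : List ℕ → E → ℝ≥0∞}
    (hg : ∀ x, ∀ w ∈ (S.W (S.nd m x l) m)ᗮ, g (x + w) = g x) (hgm : Measurable g)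
    (hF : ∀ r, Measurable (F r)) :
    ∫⁻ x, g x * fib (S.W (S.nd m x l) m) (F (S.nd m x l)) x ∂stdGaussian E =
      ∫⁻ x, g x * F (S.nd m x l) x ∂stdGaussian E := by
  have h := int_tower (S := S) hm l (F := fun r x => g x * F r x) fun r => hgm.mul (hF r)
  rw [← h]
  refine lintegral_congr fun x => ?_
  have e : ∀ z, g (mix (S.W (S.nd m x l) m) x z) = g x := by
    intro z
    obtain ⟨w, hw, hz⟩ := mix_eq_add (S.W (S.nd m x l) m) x z
    rw [hz, hg x w hw]
  unfold H395.fib
  simp_rw [e]
  rw [lintegral_const_mul]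
  exact (hF _).comp (H395.measurable_mix_right _ x)

lemma OL_add_R {m l : ℕ} (hm : S.mv.tm m < S.T) {x w : E} (hw : w ∈ (S.W (S.nd m x l) m)ᗮ) :
    x + w ∈ S.OL l m ↔ x ∈ S.OL l m := by
  have h1 := nd_inv hm x l hw
  unfold OL
  simp only [mem_setOf_eq]
  refine forall_congr' fun i => imp_congr_right fun hi => ?_
  rw [h1 i (by omega)]
  refine om_inv _ hm x w ?_
  exact Submodule.orthogonal_le (S.W_mono (nd_suffix_nd m x hi.le) m) hw

lemma omj_add_R {m l : ℕ} (hm : S.mv.tm m < S.T) {x w : E} (hw : w ∈ (S.W (S.nd m x l) m)ᗮ) :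
    x + w ∈ S.omj l m ↔ x ∈ S.omj l m := by
  have h1 := nd_inv hm x l hw l (by omega)
  unfold omj
  rw [mem_inter_iff, mem_inter_iff, mem_inter_iff, mem_inter_iff, OL_add_R hm hw]
  have h2 : x + w ∈ S.NL l m ↔ x ∈ S.NL l m := by
    unfold NL
    rw [mem_setOf_eq, mem_setOf_eq, h1]
  have h3 : x + w ∈ {x | x ∈ S.om (S.nd m x l) m} ↔ x ∈ {x | x ∈ S.om (S.nd m x l) m} := by
    rw [mem_setOf_eq, mem_setOf_eq, h1]
    exact om_inv _ hm x w hw
  rw [h2, h3]

lemma measurableSet_omj_R (l m : ℕ) : MeasurableSet (S.omj l m) :=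
  ((measurableSet_NL l m).inter (measurableSet_OL l m)).inter
    (measurableSet_nd (S := S) m l (s := fun r => S.om r m) fun r => measurableSet_om r m)

lemma iw_omj_add_R {m l : ℕ} (hm : S.mv.tm m < S.T) {x w : E}
    (hw : w ∈ (S.W (S.nd m x l) m)ᗮ) : iw (S.omj l m) (x + w) = iw (S.omj l m) x := by
  have h := omj_add_R hm hw
  unfold iw
  by_cases hx : x ∈ S.omj l m
  · rw [indicator_of_mem hx, indicator_of_mem (h.2 hx)]; rfl
  · rw [indicator_of_notMem hx, indicator_of_notMem fun h' => hx (h.1 h')]

/-! ### slopes are at most one -/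

lemma slp_le_one_R (p : List ℕ) (m : ℕ) (x : E) (s : ℝ≥0∞) : S.slp p m x s ≤ 1 := by
  unfold slp
  refine ENNReal.rpow_le_one ?_ S.hth.le
  refine ENNReal.div_le_of_le_mul ?_
  rw [one_mul]
  exact le_max_left _ _

/-! ### measurability -/

lemma xd_meas_R (p : List ℕ) (m : ℕ) : Measurable (S.xd p m) := by
  unfold xd
  exact (((S.A_meas p m).div ((S.A_meas p m).max (S.Dc_meas p m))).pow_const _).mul (S.Dl_meas p m)

lemma measurableSet_alqR (q : List ℕ) (m i : ℕ) : MeasurableSet (S.alqR q m i) := by
  have e : S.alqR q m i = ⋂ (k : ℕ), ⋂ (_ : k < i),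
      ({x | x ∈ (fun r => (S.Z r m)ᶜ) (S.nb q m x k)} ∩
        {x | x ∈ (fun r => {_x : E | ¬ S.Leaf r m}) (S.nb q m x k)}) := by
    ext x
    simp only [alqR, mem_setOf_eq, mem_iInter, mem_inter_iff, mem_compl_iff]
  rw [e]
  refine MeasurableSet.iInter fun k => MeasurableSet.iInter fun _ => MeasurableSet.inter ?_ ?_
  · exact measurableSet_nb (S := S) q m k (s := fun r => (S.Z r m)ᶜ) fun r =>
      (S.measurableSet_Z r m).compl
  · exact measurableSet_nb (S := S) q m k (s := fun r => {_x : E | ¬ S.Leaf r m}) fun r =>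
      MeasurableSet.const _

lemma RXR_meas (C a : ℝ) (q : List ℕ) (m : ℕ) : Measurable (S.RXR C a q m) := by
  unfold RXR
  refine Finset.measurable_sum _ fun i _ => Measurable.const_mul ?_ _
  refine (iw_meas (measurableSet_alqR q m i)).mul (Measurable.const_mul ?_ _)
  exact measurable_nb q m i (F := fun r => S.xd r m) fun r => xd_meas_R r m

lemma measurableSet_cntR (p : List ℕ) (m : ℕ) : MeasurableSet (S.cntR p m) := by
  refine MeasurableSet.inter ?_ (measurableSet_OMb p m _)
  have h := measurableSet_nb (S := S) p m (S.gpR p m)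
    (s := fun r => {_x : E | r = S.mv.jj m}) fun r => MeasurableSet.const _
  exact h

/-! ### the labels through the rotating node -/

/-- counted labels of level `l` whose path goes through the rotating node -/
lemma thru_of_R {m j l : ℕ} {x : E} (hj : (S.mv.jj m).length = j + 1) (hl : l ≤ j)
    (h1 : x ∈ S.omj l m) (h2 : x ∈ S.cntR (S.nd m x l) m) :
    x ∈ S.thru (j + 1) m ∩ S.OL (j + 1) m := by
  have hg : S.gpR (S.nd m x l) m = j + 1 - l := by
    unfold gpR
    rw [hj, length_nd]
  obtain ⟨h3, h4⟩ := h2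
  rw [mem_setOf_eq, hg] at h3
  have h5 : S.nd m x (j + 1) = S.mv.jj m := by
    rw [show j + 1 = l + (j + 1 - l) by omega, nd_add]
    exact h3
  refine ⟨h5, fun i hi => ?_⟩
  rcases lt_trichotomy i l with h | h | h
  · exact h1.1.2 i h
  · rw [h]; exact h1.2
  · have h6 := h4 (i - l) (by omega) (by rw [hg]; omega)
    rw [← nd_add, show l + (i - l) = i by omega] at h6
    exact h6

/-- the displacement terms of the rotating node are the terms of the throughput -/
lemma alj_of_R {m j i : ℕ} {x : E} (h1 : S.nd m x (j + 1) = S.mv.jj m)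
    (h2 : x ∈ S.alqR (S.mv.jj m) m i) : x ∈ S.alj (j + 1) (j + 1 + i) m := by
  intro k hk1 hk2
  have h3 := h2 (k - (j + 1)) (by omega)
  rw [← h1, ← nd_add, show j + 1 + (k - (j + 1)) = k by omega] at h3
  exact h3

/-- beyond the last level there are no labels -/
lemma alj_empty_R {m j i : ℕ} {x : E} (hm : S.mv.tm m < S.T) (hi : 1 ≤ i)
    (hn : S.nl < j + 1 + i) (h : x ∈ S.alj (j + 1) (j + 1 + i) m) : False := by
  have h1 := (h (j + i) (by omega) (by omega)).2
  have h2 := length_le_of_not_leaf hm h1
  rw [length_nd] at h2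
  unfold nl at hn
  omega

lemma thru_level_R {m j : ℕ} {x : E} (hm : m < S.mT) (hr : S.mv.IsRot m)
    (hj : (S.mv.jj m).length = j + 1) : j + 1 ≤ S.nl := by
  obtain ⟨c, p, hp⟩ : ∃ c p, S.mv.jj m = c :: p := by
    rcases h : S.mv.jj m with _ | ⟨c, p⟩
    · rw [h] at hj; simp at hj
    · exact ⟨c, p, rfl⟩
  have h1 := length_le_of_not_leaf (tm_lt_mT hm) (not_leaf_of_rot hm hr hp)
  rw [hp] at hj
  simp only [List.length_cons] at hj
  unfold nl
  omega

/-- **integration of the price of an inner rotation** -/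
theorem roti_of {G : List ℕ → ℕ → E → ℝ≥0∞} {H : ℕ → E → ℝ≥0∞} {C a : ℝ} (hC : 1 ≤ C)
    (ha : 0 ≤ a) (hH : ∀ m, Measurable (H m))
    (hG : ∀ m < S.mT, S.mv.IsRot m → ∀ p, p.length < (S.mv.jj m).length → ∀ x,
      G p m x ≤ S.GinR C a H p m x) : S.ROTI G H C a := by
  intro m hm hr j hj l hl
  have ht := tm_lt_mT hm
  have hC0 : 0 ≤ C := by linarith
  -- the two integrands at the nodes
  set F1 : List ℕ → E → ℝ≥0∞ := fun r y => iw (S.cntR r m) y *
    (ENNReal.ofReal (a ^ S.gpR r m) * S.RXR C a (S.mv.jj m) m y) with hF1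
  set F2 : List ℕ → E → ℝ≥0∞ := fun r y => iw (S.cntR r m) y *
    (ENNReal.ofReal (a ^ S.gpR r m) * H m y) with hF2
  have hF1m : ∀ r, Measurable (F1 r) := fun r =>
    (iw_meas (measurableSet_cntR r m)).mul ((RXR_meas C a _ m).const_mul _)
  have hF2m : ∀ r, Measurable (F2 r) := fun r =>
    (iw_meas (measurableSet_cntR r m)).mul ((hH m).const_mul _)
  have hgm : Measurable (iw (S.omj l m)) := iw_meas (measurableSet_omj_R l m)
  have hgi : ∀ x, ∀ w ∈ (S.W (S.nd m x l) m)ᗮ, iw (S.omj l m) (x + w) = iw (S.omj l m) x :=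
    fun x w hw => iw_omj_add_R ht hw
  -- step 1: the price
  have s1 : S.Pt G l m ≤ ∫⁻ x, iw (S.omj l m) x * fib (S.W (S.nd m x l) m) (F1 (S.nd m x l)) x
        ∂stdGaussian E +
      ∫⁻ x, iw (S.omj l m) x * fib (S.W (S.nd m x l) m) (F2 (S.nd m x l)) x ∂stdGaussian E := by
    have hm1 : Measurable fun x =>
        iw (S.omj l m) x * fib (S.W (S.nd m x l) m) (F1 (S.nd m x l)) x :=
      hgm.mul (measurable_nd (S := S) m l (F := fun r => fib (S.W r m) (F1 r)) fun r =>
        H395.measurable_fib (hF1m r))
    rw [← lintegral_add_left hm1]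
    unfold Pt
    refine lintegral_mono fun x => ?_
    rw [← mul_add]
    refine mul_le_mul' (iw_le_R fun h => h.1) ?_
    have h1 : (S.nd m x l).length < (S.mv.jj m).length := by rw [length_nd, hj]; omega
    refine le_trans ?_ (hG m hm hr _ h1 x)
    calc _ ≤ 1 * G (S.nd m x l) m x := mul_le_mul' (slp_le_one_R _ _ _ _) le_rfl
      _ = _ := one_mul _
  refine s1.trans ?_
  rw [int_mul_fibL ht l hgi hgm hF1m, int_mul_fibL ht l hgi hgm hF2m, add_comm]
  have hg : ∀ x, S.gpR (S.nd m x l) m = j + 1 - l := by
    intro x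
    unfold gpR
    rw [hj, length_nd]
  refine add_le_add ?_ ?_
  · -- hidden moment
    have h1 : ∀ x, iw (S.omj l m) x * F2 (S.nd m x l) x ≤
        ENNReal.ofReal (C * a ^ (j + 1 - l)) *
          (iw (S.thru (j + 1) m ∩ S.OL (j + 1) m) x * H m x) := by
      intro x
      simp only [hF2, hg]
      by_cases hx : x ∈ S.omj l m ∧ x ∈ S.cntR (S.nd m x l) m
      · have h2 := thru_of_R hj hl hx.1 hx.2
        have e1 : iw (S.thru (j + 1) m ∩ S.OL (j + 1) m) x = 1 := indicator_of_mem h2 _
        rw [e1, one_mul]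
        calc iw (S.omj l m) x * (iw (S.cntR (S.nd m x l) m) x *
              (ENNReal.ofReal (a ^ (j + 1 - l)) * H m x))
            ≤ 1 * (1 * (ENNReal.ofReal (a ^ (j + 1 - l)) * H m x)) :=
              mul_le_mul' (iw_le_one_R _ _) (mul_le_mul' (iw_le_one_R _ _) le_rfl)
          _ = ENNReal.ofReal (a ^ (j + 1 - l)) * H m x := by rw [one_mul, one_mul]
          _ ≤ _ := by
              refine mul_le_mul' (ENNReal.ofReal_le_ofReal ?_) le_rfl
              have : 0 ≤ a ^ (j + 1 - l) := by positivity
              nlinarith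
      · have e0 : iw (S.omj l m) x * iw (S.cntR (S.nd m x l) m) x = 0 := by
          rcases not_and_or.1 hx with h | h
          · rw [show iw (S.omj l m) x = 0 from indicator_of_notMem h _, zero_mul]
          · rw [show iw (S.cntR (S.nd m x l) m) x = 0 from indicator_of_notMem h _, mul_zero]
        rw [← mul_assoc, e0, zero_mul]
        exact zero_le
    refine (lintegral_mono h1).trans (le_of_eq ?_)
    unfold Hw
    rw [lintegral_const_mul]
    refine (iw_meas ?_).mul (hH m)
    refine MeasurableSet.inter ?_ (measurableSet_OL _ _)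
    exact measurableSet_nd (S := S) m (j + 1) (s := fun r => {_x : E | r = S.mv.jj m}) fun r =>
      MeasurableSet.const _
  · -- displacement
    have hjn := thru_level_R (S := S) (x := (0 : E)) hm hr hj
    have h1 : ∀ x, iw (S.omj l m) x * F1 (S.nd m x l) x ≤
        ∑ i ∈ Finset.Icc (j + 1) S.nl, ENNReal.ofReal (C * a ^ (i - l)) *
          (iw (S.thru (j + 1) m ∩ S.OL (j + 1) m ∩ S.alj (j + 1) i m) x *
            S.xd (S.nd m x i) m x) := by
      intro x
      simp only [hF1, hg]
      by_cases hx : x ∈ S.omj l m ∧ x ∈ S.cntR (S.nd m x l) m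
      · have h2 := thru_of_R hj hl hx.1 hx.2
        have h2' : S.nd m x (j + 1) = S.mv.jj m := h2.1
        calc iw (S.omj l m) x * (iw (S.cntR (S.nd m x l) m) x *
              (ENNReal.ofReal (a ^ (j + 1 - l)) * S.RXR C a (S.mv.jj m) m x))
            ≤ 1 * (1 * (ENNReal.ofReal (a ^ (j + 1 - l)) * S.RXR C a (S.mv.jj m) m x)) :=
              mul_le_mul' (iw_le_one_R _ _) (mul_le_mul' (iw_le_one_R _ _) le_rfl)
          _ = ENNReal.ofReal (a ^ (j + 1 - l)) * S.RXR C a (S.mv.jj m) m x := by
              rw [one_mul, one_mul]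
          _ = ∑ i ∈ Finset.range (Module.finrank ℝ E), ENNReal.ofReal (C * a ^ (j + 1 + i - l)) *
                (iw (S.alqR (S.mv.jj m) m i) x * S.xd (S.nd m x (j + 1 + i)) m x) := by
              unfold RXR
              rw [Finset.mul_sum]
              refine Finset.sum_congr rfl fun i _ => ?_
              rw [nd_add, h2', show j + 1 + i - l = (j + 1 - l) + i by omega, pow_add,
                ENNReal.ofReal_mul hC0, ENNReal.ofReal_mul (by positivity)]
              ring
          _ ≤ ∑ i ∈ Finset.range (Module.finrank ℝ E), (if j + 1 + i ≤ S.nl then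
                ENNReal.ofReal (C * a ^ (j + 1 + i - l)) *
                (iw (S.thru (j + 1) m ∩ S.OL (j + 1) m ∩ S.alj (j + 1) (j + 1 + i) m) x *
                  S.xd (S.nd m x (j + 1 + i)) m x) else 0) := by
              refine Finset.sum_le_sum fun i _ => ?_
              by_cases hi : x ∈ S.alqR (S.mv.jj m) m i
              · have h3 := alj_of_R h2' hi
                by_cases hn : j + 1 + i ≤ S.nl
                · rw [if_pos hn]
                  refine mul_le_mul' le_rfl (mul_le_mul' ?_ le_rfl)
                  exact iw_le_R fun _ => ⟨h2, h3⟩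
                · exfalso
                  rcases Nat.eq_zero_or_pos i with rfl | h0
                  · exact hn (by rw [add_zero]; exact hjn)
                  · exact alj_empty_R ht h0 (by omega) h3
              · rw [show iw (S.alqR (S.mv.jj m) m i) x = 0 from indicator_of_notMem hi _,
                  zero_mul, mul_zero]
                exact zero_le
          _ ≤ _ := by
              rw [← Finset.sum_filter]
              have hinj : Set.InjOn (fun i => j + 1 + i)
                  (((Finset.range (Module.finrank ℝ E)).filter fun i => j + 1 + i ≤ S.nl :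
                    Finset ℕ) : Set ℕ) := fun a _ b _ h => by simpa using h
              rw [← Finset.sum_image (f := fun i => ENNReal.ofReal (C * a ^ (i - l)) *
                (iw (S.thru (j + 1) m ∩ S.OL (j + 1) m ∩ S.alj (j + 1) i m) x *
                  S.xd (S.nd m x i) m x)) (g := fun i => j + 1 + i) hinj]
              refine Finset.sum_le_sum_of_subset fun i hi => ?_
              rw [Finset.mem_image] at hi
              obtain ⟨k, hk, rfl⟩ := hi
              rw [Finset.mem_filter] at hk
              rw [Finset.mem_Icc]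
              exact ⟨by omega, hk.2⟩
      · have e0 : iw (S.omj l m) x * iw (S.cntR (S.nd m x l) m) x = 0 := by
          rcases not_and_or.1 hx with h | h
          · rw [show iw (S.omj l m) x = 0 from indicator_of_notMem h _, zero_mul]
          · rw [show iw (S.cntR (S.nd m x l) m) x = 0 from indicator_of_notMem h _, mul_zero]
        rw [← mul_assoc, e0, zero_mul]
        exact zero_le
    refine (lintegral_mono h1).trans ?_
    have hmeas : ∀ i, Measurable fun x =>
        iw (S.thru (j + 1) m ∩ S.OL (j + 1) m ∩ S.alj (j + 1) i m) x * S.xd (S.nd m x i) m x := by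
      intro i
      refine (iw_meas ?_).mul (measurable_nd m i (F := fun r => S.xd r m) fun r => xd_meas_R r m)
      refine MeasurableSet.inter (MeasurableSet.inter ?_ (measurableSet_OL _ _)) ?_
      · exact measurableSet_nd (S := S) m (j + 1) (s := fun r => {_x : E | r = S.mv.jj m})
          fun r => MeasurableSet.const _
      · have e : S.alj (j + 1) i m = ⋂ (k : ℕ), ⋂ (_ : j + 1 ≤ k), ⋂ (_ : k < i),
            ({x | x ∈ (fun r => (S.Z r m)ᶜ) (S.nd m x k)} ∩
              {x | x ∈ (fun r => {_x : E | ¬ S.Leaf r m}) (S.nd m x k)}) := by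
          ext x
          simp only [alj, mem_setOf_eq, mem_iInter, mem_inter_iff, mem_compl_iff]
        rw [e]
        refine MeasurableSet.iInter fun k => MeasurableSet.iInter fun _ =>
          MeasurableSet.iInter fun _ => MeasurableSet.inter ?_ ?_
        · exact measurableSet_nd (S := S) m k (s := fun r => (S.Z r m)ᶜ) fun r =>
            (S.measurableSet_Z r m).compl
        · exact measurableSet_nd (S := S) m k (s := fun r => {_x : E | ¬ S.Leaf r m}) fun r =>
            MeasurableSet.const _
    rw [lintegral_finset_sum _ fun i _ => (hmeas i).const_mul _]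
    refine le_of_eq (Finset.sum_congr rfl fun i _ => ?_)
    rw [lintegral_const_mul _ (hmeas i)]
    rfl

end Vale.Agent.P262.M2.Sys
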