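import Vale.Agent.P262.H118.Win

/-!
# P262, milestone 2: states, classes and blocks of one label (block (9.3) of the skeleton)

`B c` are the starting times of the windows of class `c` in the life `[a, b)` (`H118.windows`),
`Ds t` is the maximum over the elementary states of the step `t` of the dead mass of the fibre of one
label.  `Dst c t` is the maximum of `Ds` over the class-`c` window containing `t`, `zst t` the state
`ZERO` (with hysteresis `lo, hi`, static on the coarse windows), `cl t` the class of an `OWN` label,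
`kl t` the class used for the block (`0` for `ZERO`), `[bs t, be t)` the block.
-/

namespace Vale.Agent.P262.H713

open Vale.Agent.P262.H118
open scoped ENNReal

/-- nested windows of the life `[a, b)`. -/
structure Wins (B : ℕ → Set ℕ) (a b : ℕ) : Prop where
  lt : a < b
  start : ∀ c, a ∈ B c
  sub : ∀ c, B c ⊆ B (c + 1)
  range : ∀ c, ∀ t ∈ B c, a ≤ t ∧ t < b

/-- start of the class-`c` window containing `t`. -/
noncomputable def ws (B : ℕ → Set ℕ) (c t : ℕ) : ℕ := st (B c) t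

/-- end of the class-`c` window containing `t`. -/
noncomputable def we (B : ℕ → Set ℕ) (b c t : ℕ) : ℕ := en (B c) b (ws B c t)

variable {B : ℕ → Set ℕ} {a b : ℕ}

lemma ws_mem (h : Wins B a b) {c t : ℕ} (ha : a ≤ t) : ws B c t ∈ B c := by
  classical
  exact Nat.findGreatest_spec (P := (· ∈ B c)) ha (h.start c)

lemma ws_le (c t : ℕ) : ws B c t ≤ t := st_le t

lemma le_ws (h : Wins B a b) {c t : ℕ} (ha : a ≤ t) : a ≤ ws B c t := (h.range c _ (ws_mem h ha)).1

lemma le_ws_of_mem {c t r : ℕ} (hr : r ∈ B c) (hrt : r ≤ t) : r ≤ ws B c t := by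
  by_contra hcon
  exact not_mem_of_st (by unfold ws at hcon; omega) hrt hr

lemma iv_win (h : Wins B a b) {c t : ℕ} (ha : a ≤ t) (hb : t < b) :
    Iv (B c) b (ws B c t) (we B b c t) :=
  iv_en (ws_mem h ha) (lt_of_le_of_lt (ws_le c t) hb)

lemma lt_we (h : Wins B a b) {c t : ℕ} (ha : a ≤ t) (hb : t < b) : t < we B b c t := by
  by_contra hcon
  push Not at hcon
  have h1 := iv_win (c := c) h ha hb
  rcases h1.2.2.2.1 with h2 | h2
  · have := le_ws_of_mem h2 hcon
    have := h1.2.1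
    omega
  · omega

lemma we_le (c t : ℕ) : we B b c t ≤ b := en_le _ _ _

lemma win_eq (h : Wins B a b) {c t r : ℕ} (ha : a ≤ t) (hb : t < b) (h1 : ws B c t ≤ r)
    (h2 : r < we B b c t) : ws B c r = ws B c t ∧ we B b c r = we B b c t := by
  have h3 := iv_win (c := c) h ha hb
  have hr : a ≤ r := (le_ws h ha).trans h1
  have hrb : r < b := lt_of_lt_of_le h2 (we_le c t)
  have h4 := iv_win (c := c) h hr hrb
  have h5 := h4.unique h3 (t := r) (ws_le c r) (lt_we h hr hrb) h1 h2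
  exact h5

lemma sub_of_le (h : Wins B a b) {c c' : ℕ} (hc : c ≤ c') : B c ⊆ B c' := by
  induction c', hc using Nat.le_induction with
  | base => exact subset_rfl
  | succ c' _ ih => exact ih.trans (h.sub c')

lemma ws_mono (h : Wins B a b) {c c' t : ℕ} (hc : c ≤ c') (ha : a ≤ t) : ws B c t ≤ ws B c' t :=
  le_ws_of_mem (sub_of_le h hc (ws_mem h ha)) (ws_le c t)

lemma we_anti (h : Wins B a b) {c c' t : ℕ} (hc : c ≤ c') (ha : a ≤ t) (hb : t < b) :
    we B b c' t ≤ we B b c t := by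
  by_contra hcon
  push Not at hcon
  have h1 := iv_win (c := c) h ha hb
  have h2 := iv_win (c := c') h ha hb
  rcases h1.2.2.2.1 with h3 | h3
  · exact h2.2.2.2.2 _ (lt_of_le_of_lt (ws_le c' t) (lt_we h ha hb)) hcon (sub_of_le h hc h3)
  · have := we_le (B := B) (b := b) c' t
    omega

lemma ws_succ (h : Wins B a b) {c t : ℕ} (ha : a ≤ t) (ht : t + 1 ∉ B c) :
    ws B c (t + 1) = ws B c t := by
  have h1 := ws_mem (c := c) h (t := t + 1) (by omega)
  have h2 : ws B c (t + 1) ≤ t := by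
    rcases (ws_le (B := B) c (t + 1)).eq_or_lt with h3 | h3
    · rw [h3] at h1; exact absurd h1 ht
    · omega
  exact le_antisymm (le_ws_of_mem h1 h2) (le_ws_of_mem (ws_mem h ha) (by have := ws_le (B := B) c t; omega))

lemma we_succ (h : Wins B a b) {c t : ℕ} (ha : a ≤ t) (ht : t + 1 ∉ B c) :
    we B b c (t + 1) = we B b c t := by
  unfold we; rw [ws_succ h ha ht]

lemma ws_of_mem {c t : ℕ} (ht : t ∈ B c) : ws B c t = t :=
  le_antisymm (ws_le c t) (le_ws_of_mem ht le_rfl)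

lemma we_of_succ_mem (h : Wins B a b) {c t : ℕ} (ha : a ≤ t) (hb : t < b) (ht : t + 1 ∈ B c) :
    we B b c t = t + 1 := by
  have h1 := iv_win (c := c) h ha hb
  have h2 := lt_we (c := c) h ha hb
  by_contra hcon
  exact h1.2.2.2.2 (t + 1) (by have := ws_le (B := B) c t; omega) (by omega) ht

/-! ### window maxima -/

/-- the maximum of `Ds` over the class-`c` window containing `t`. -/
noncomputable def Dst (B : ℕ → Set ℕ) (b : ℕ) (Ds : ℕ → ℝ≥0∞) (c t : ℕ) : ℝ≥0∞ :=
  (Finset.Ico (ws B c t) (we B b c t)).sup Ds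

variable {Ds : ℕ → ℝ≥0∞}

lemma le_Dst {c t r : ℕ} (h1 : ws B c t ≤ r) (h2 : r < we B b c t) : Ds r ≤ Dst B b Ds c t :=
  Finset.le_sup (f := Ds) (Finset.mem_Ico.2 ⟨h1, h2⟩)

lemma le_Dst_self (h : Wins B a b) {c t : ℕ} (ha : a ≤ t) (hb : t < b) : Ds t ≤ Dst B b Ds c t :=
  le_Dst (ws_le c t) (lt_we h ha hb)

lemma exists_Dst (h : Wins B a b) {c t : ℕ} (ha : a ≤ t) (hb : t < b) :
    ∃ r, ws B c t ≤ r ∧ r < we B b c t ∧ Ds r = Dst B b Ds c t := by
  have hne : (Finset.Ico (ws B c t) (we B b c t)).Nonempty :=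
    Finset.nonempty_Ico.2 (iv_win (c := c) h ha hb).2.1
  obtain ⟨r, hr, h1⟩ := Finset.exists_mem_eq_sup _ hne Ds
  rw [Finset.mem_Ico] at hr
  exact ⟨r, hr.1, hr.2, h1.symm⟩

lemma Dst_anti (h : Wins B a b) {c c' t : ℕ} (hc : c ≤ c') (ha : a ≤ t) (hb : t < b) :
    Dst B b Ds c' t ≤ Dst B b Ds c t :=
  Finset.sup_mono (Finset.Ico_subset_Ico (ws_mono h hc ha) (we_anti h hc ha hb))

lemma Dst_eq (h : Wins B a b) {c t r : ℕ} (ha : a ≤ t) (hb : t < b) (h1 : ws B c t ≤ r)
    (h2 : r < we B b c t) : Dst B b Ds c r = Dst B b Ds c t := by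
  unfold Dst
  rw [(win_eq h ha hb h1 h2).1, (win_eq h ha hb h1 h2).2]

/-! ### the state `ZERO` -/

open Classical in
/-- state `ZERO` with hysteresis, static on the coarse windows. -/
noncomputable def zst (B : ℕ → Set ℕ) (a b : ℕ) (lo hi : ℝ≥0∞) (Ds : ℕ → ℝ≥0∞) : ℕ → Prop
  | 0 => lo ≤ Dst B b Ds 0 0
  | t + 1 => if t + 1 ∈ B 0 then
      (hi ≤ Dst B b Ds 0 (t + 1) ∨ (lo ≤ Dst B b Ds 0 (t + 1) ∧ (t + 1 = a ∨ zst B a b lo hi Ds t)))
    else zst B a b lo hi Ds t

variable {lo hi : ℝ≥0∞}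

lemma zst_succ_of_not_mem {t : ℕ} (ht : t + 1 ∉ B 0) :
    zst B a b lo hi Ds (t + 1) ↔ zst B a b lo hi Ds t := by
  rw [zst, if_neg ht]

lemma zst_succ_of_mem {t : ℕ} (ht : t + 1 ∈ B 0) :
    zst B a b lo hi Ds (t + 1) ↔ (hi ≤ Dst B b Ds 0 (t + 1) ∨
      (lo ≤ Dst B b Ds 0 (t + 1) ∧ (t + 1 = a ∨ zst B a b lo hi Ds t))) := by
  rw [zst, if_pos ht]

/-- at the start of the life. -/
lemma zst_start (hlh : lo ≤ hi) (h : Wins B a b) :
    zst B a b lo hi Ds a ↔ lo ≤ Dst B b Ds 0 a := by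
  cases a with
  | zero => rw [zst]
  | succ a =>
    rw [zst_succ_of_mem (h.start 0)]
    constructor
    · rintro (h1 | h1)
      · exact hlh.trans h1
      · exact h1.1
    · exact fun h1 => Or.inr ⟨h1, Or.inl rfl⟩

lemma zst_ws (h : Wins B a b) {t : ℕ} (ha : a ≤ t) :
    zst B a b lo hi Ds t ↔ zst B a b lo hi Ds (ws B 0 t) := by
  induction t, ha using Nat.le_induction with
  | base => rw [ws_of_mem (h.start 0)]
  | succ t ha ih =>
    by_cases ht : t + 1 ∈ B 0
    · rw [ws_of_mem ht]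
    · rw [zst_succ_of_not_mem ht, ws_succ h ha ht]
      exact ih

/-- `ZERO` is static on the coarse windows. -/
theorem zst_const (h : Wins B a b) {t r : ℕ} (ha : a ≤ t) (hb : t < b) (h1 : ws B 0 t ≤ r)
    (h2 : r < we B b 0 t) : zst B a b lo hi Ds r ↔ zst B a b lo hi Ds t := by
  rw [zst_ws h ((le_ws h ha).trans h1), zst_ws h ha, (win_eq h ha hb h1 h2).1]

/-- `ZERO` labels have a large dead mass on their coarse window. -/
theorem lo_le_of_zst (hlh : lo ≤ hi) (h : Wins B a b) {t : ℕ} (ha : a ≤ t) (hb : t < b)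
    (hz : zst B a b lo hi Ds t) : lo ≤ Dst B b Ds 0 t := by
  induction t, ha using Nat.le_induction with
  | base => exact (zst_start hlh h).1 hz
  | succ t ha ih =>
    by_cases ht : t + 1 ∈ B 0
    · rcases (zst_succ_of_mem ht).1 hz with h1 | h1
      · exact hlh.trans h1
      · exact h1.1
    · have h1 := ih (by omega) ((zst_succ_of_not_mem ht).1 hz)
      unfold Dst at h1 ⊢
      rw [ws_succ h ha ht, we_succ h ha ht]
      exact h1

/-- `OWN` labels are healthy on their whole coarse window. -/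
theorem lt_hi_of_own (hlh : lo ≤ hi) (h : Wins B a b) {t : ℕ} (ha : a ≤ t) (hb : t < b)
    (hz : ¬ zst B a b lo hi Ds t) : Dst B b Ds 0 t < hi := by
  induction t, ha using Nat.le_induction with
  | base => exact lt_of_lt_of_le (not_le.1 fun h1 => hz ((zst_start hlh h).2 h1)) hlh
  | succ t ha ih =>
    by_cases ht : t + 1 ∈ B 0
    · exact not_le.1 fun h1 => hz ((zst_succ_of_mem ht).2 (Or.inl h1))
    · have h1 := ih (by omega) (fun h2 => hz ((zst_succ_of_not_mem ht).2 h2))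
      unfold Dst at h1 ⊢
      rw [ws_succ h ha ht, we_succ h ha ht]
      exact h1

theorem Ds_lt_hi_of_own (hlh : lo ≤ hi) (h : Wins B a b) {t r : ℕ} (ha : a ≤ t) (hb : t < b)
    (hz : ¬ zst B a b lo hi Ds t) (h1 : ws B 0 t ≤ r) (h2 : r < we B b 0 t) : Ds r < hi :=
  lt_of_le_of_lt (le_Dst h1 h2) (lt_hi_of_own hlh h ha hb hz)

/-! ### classes and blocks -/

/-- the class of an `OWN` label. -/
noncomputable def cl (B : ℕ → Set ℕ) (b : ℕ) (Ds : ℕ → ℝ≥0∞) (A : ℝ≥0∞) (thr : ℕ → ℝ≥0∞) (t : ℕ) :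
    ℕ := sInf {c | 1 ≤ c ∧ (thr c ≤ Dst B b Ds c t ∨ thr c ≤ A)}

open Classical in
/-- the class of the block: `0` at `ZERO` labels. -/
noncomputable def kl (B : ℕ → Set ℕ) (a b : ℕ) (lo hi : ℝ≥0∞) (Ds : ℕ → ℝ≥0∞) (A : ℝ≥0∞)
    (thr : ℕ → ℝ≥0∞) (t : ℕ) : ℕ := if zst B a b lo hi Ds t then 0 else cl B b Ds A thr t

variable {A : ℝ≥0∞} {thr : ℕ → ℝ≥0∞}

lemma cl_spec (hA : ∃ c, 1 ≤ c ∧ thr c ≤ A) (t : ℕ) :
    1 ≤ cl B b Ds A thr t ∧ (thr (cl B b Ds A thr t) ≤ Dst B b Ds (cl B b Ds A thr t) t ∨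
      thr (cl B b Ds A thr t) ≤ A) := by
  obtain ⟨c, h1, h2⟩ := hA
  exact Nat.sInf_mem (s := {c | 1 ≤ c ∧ (thr c ≤ Dst B b Ds c t ∨ thr c ≤ A)}) ⟨c, h1, Or.inr h2⟩

lemma cl_min {t c : ℕ} (hc : 1 ≤ c) (h : c < cl B b Ds A thr t) :
    Dst B b Ds c t < thr c ∧ A < thr c := by
  have h1 := Nat.notMem_of_lt_sInf h
  simp only [Set.mem_ofPred_eq, not_and, not_or, not_le] at h1
  exact h1 hc

/-- the class is constant on the window of its own class. -/
theorem cl_const (h : Wins B a b) (hA : ∃ c, 1 ≤ c ∧ thr c ≤ A) {t r : ℕ} (ha : a ≤ t) (hb : t < b)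
    (h1 : ws B (cl B b Ds A thr t) t ≤ r) (h2 : r < we B b (cl B b Ds A thr t) t) :
    cl B b Ds A thr r = cl B b Ds A thr t := by
  set c := cl B b Ds A thr t with hc
  have hle : ∀ c' ≤ c, Dst B b Ds c' r = Dst B b Ds c' t := fun c' hc' =>
    Dst_eq h ha hb ((ws_mono h hc' ha).trans h1) (lt_of_lt_of_le h2 (we_anti h hc' ha hb))
  obtain ⟨h3, h4⟩ := cl_spec (B := B) (b := b) (Ds := Ds) hA t
  rw [← hc] at h3 h4
  apply le_antisymm
  · refine Nat.sInf_le ⟨h3, ?_⟩
    rw [hle c le_rfl]; exact h4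
  · by_contra hcon
    push Not at hcon
    obtain ⟨h5, h6⟩ := cl_spec (B := B) (b := b) (Ds := Ds) hA r
    obtain ⟨h7, h8⟩ := cl_min (B := B) (b := b) (Ds := Ds) (A := A) (thr := thr) (t := t) h5
      (by rw [← hc]; exact hcon)
    rw [hle _ hcon.le] at h6
    rcases h6 with h6 | h6
    · exact absurd h6 (not_le.2 h7)
    · exact absurd h6 (not_le.2 h8)

lemma kl_zero {t : ℕ} (hz : zst B a b lo hi Ds t) : kl B a b lo hi Ds A thr t = 0 := by
  unfold kl; rw [if_pos hz]

lemma kl_own {t : ℕ} (hz : ¬ zst B a b lo hi Ds t) :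
    kl B a b lo hi Ds A thr t = cl B b Ds A thr t := by
  unfold kl; rw [if_neg hz]

lemma kl_eq_zero_iff {t : ℕ} (hA : ∃ c, 1 ≤ c ∧ thr c ≤ A) {t : ℕ} :
    kl B a b lo hi Ds A thr t = 0 ↔ zst B a b lo hi Ds t := by
  constructor
  · intro h
    by_contra hz
    rw [kl_own hz] at h
    have := (cl_spec (B := B) (b := b) (Ds := Ds) hA t).1
    omega
  · exact kl_zero

/-- start of the block of the label at time `t`. -/
noncomputable def bs (B : ℕ → Set ℕ) (a b : ℕ) (lo hi : ℝ≥0∞) (Ds : ℕ → ℝ≥0∞) (A : ℝ≥0∞)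
    (thr : ℕ → ℝ≥0∞) (t : ℕ) : ℕ := ws B (kl B a b lo hi Ds A thr t) t

/-- end of the block of the label at time `t`. -/
noncomputable def be (B : ℕ → Set ℕ) (a b : ℕ) (lo hi : ℝ≥0∞) (Ds : ℕ → ℝ≥0∞) (A : ℝ≥0∞)
    (thr : ℕ → ℝ≥0∞) (t : ℕ) : ℕ := we B b (kl B a b lo hi Ds A thr t) t

/-- state, class and block are constant on the block. -/
theorem block_const (h : Wins B a b) (hA : ∃ c, 1 ≤ c ∧ thr c ≤ A) {t r : ℕ} (ha : a ≤ t)
    (hb : t < b) (h1 : bs B a b lo hi Ds A thr t ≤ r) (h2 : r < be B a b lo hi Ds A thr t) :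
    (zst B a b lo hi Ds r ↔ zst B a b lo hi Ds t) ∧
      kl B a b lo hi Ds A thr r = kl B a b lo hi Ds A thr t ∧
      bs B a b lo hi Ds A thr r = bs B a b lo hi Ds A thr t ∧
      be B a b lo hi Ds A thr r = be B a b lo hi Ds A thr t := by
  have h3 : zst B a b lo hi Ds r ↔ zst B a b lo hi Ds t :=
    zst_const h ha hb ((ws_mono h (Nat.zero_le _) ha).trans h1)
      (lt_of_lt_of_le h2 (we_anti h (Nat.zero_le _) ha hb))
  have h4 : kl B a b lo hi Ds A thr r = kl B a b lo hi Ds A thr t := by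
    by_cases hz : zst B a b lo hi Ds t
    · rw [kl_zero hz, kl_zero (h3.2 hz)]
    · have hz' : ¬ zst B a b lo hi Ds r := fun h5 => hz (h3.1 h5)
      unfold bs at h1
      unfold be at h2
      rw [kl_own hz] at h1 h2
      rw [kl_own hz, kl_own hz', cl_const h hA ha hb h1 h2]
  refine ⟨h3, h4, ?_⟩
  have h5 := win_eq h ha hb h1 h2
  unfold bs be
  rw [h4]
  exact h5

lemma bs_le (t : ℕ) : bs B a b lo hi Ds A thr t ≤ t := ws_le _ _

lemma le_bs (h : Wins B a b) {t : ℕ} (ha : a ≤ t) : a ≤ bs B a b lo hi Ds A thr t := le_ws h ha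

lemma lt_be (h : Wins B a b) {t : ℕ} (ha : a ≤ t) (hb : t < b) : t < be B a b lo hi Ds A thr t :=
  lt_we h ha hb

lemma be_le (t : ℕ) : be B a b lo hi Ds A thr t ≤ b := we_le _ _

lemma iv_block (h : Wins B a b) {t : ℕ} (ha : a ≤ t) (hb : t < b) :
    Iv (B (kl B a b lo hi Ds A thr t)) b (bs B a b lo hi Ds A thr t) (be B a b lo hi Ds A thr t) :=
  iv_win h ha hb

/-- the maximum over the block. -/
noncomputable def Dbl (B : ℕ → Set ℕ) (a b : ℕ) (lo hi : ℝ≥0∞) (Ds : ℕ → ℝ≥0∞) (A : ℝ≥0∞)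
    (thr : ℕ → ℝ≥0∞) (t : ℕ) : ℝ≥0∞ := Dst B b Ds (kl B a b lo hi Ds A thr t) t

/-- size of the dead mass on the block of an `OWN` label of class `c`. -/
theorem own_class (hlh : lo ≤ hi) (h : Wins B a b) (hA : ∃ c, 1 ≤ c ∧ thr c ≤ A) {t : ℕ}
    (ha : a ≤ t) (hb : t < b) (hz : ¬ zst B a b lo hi Ds t) :
    1 ≤ kl B a b lo hi Ds A thr t ∧ Dbl B a b lo hi Ds A thr t < hi ∧
      (thr (kl B a b lo hi Ds A thr t) ≤ Dbl B a b lo hi Ds A thr t ∨
        thr (kl B a b lo hi Ds A thr t) ≤ A) ∧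
      (2 ≤ kl B a b lo hi Ds A thr t →
        Dbl B a b lo hi Ds A thr t < thr (kl B a b lo hi Ds A thr t - 1) ∧
          A < thr (kl B a b lo hi Ds A thr t - 1)) := by
  have h0 := cl_spec (B := B) (b := b) (Ds := Ds) hA t
  unfold Dbl
  rw [kl_own hz]
  refine ⟨h0.1, lt_of_le_of_lt (Dst_anti h (Nat.zero_le _) ha hb) (lt_hi_of_own hlh h ha hb hz),
    h0.2, fun h2 => ?_⟩
  have h3 := cl_min (B := B) (b := b) (Ds := Ds) (A := A) (thr := thr) (t := t)
    (c := cl B b Ds A thr t - 1) (by omega) (by omega)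
  exact ⟨lt_of_le_of_lt (Dst_anti h (by omega) ha hb) h3.1, h3.2⟩

/-! ### the frozen rule -/

open Classical in
/-- the frozen rule of a label: `De r` the dead mass at the end of the step `r`, `Fm r` the maximum of
the visible mass over the elementary states of the step `r`, `kld` : the label is killed. -/
noncomputable def omr (B : ℕ → Set ℕ) (a b : ℕ) (lo hi : ℝ≥0∞) (Ds : ℕ → ℝ≥0∞) (A : ℝ≥0∞)
    (thr : ℕ → ℝ≥0∞) (M : ℝ≥0∞) (De Fm : ℕ → ℝ≥0∞) (kld : Prop) (t : ℕ) : ℝ≥0∞ :=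
  if ¬ kld ∧ (zst B a b lo hi Ds t ∨ A ≤ De (be B a b lo hi Ds A thr t - 1) ∨
    M * A ≤ (Finset.Ico (bs B a b lo hi Ds A thr t) (be B a b lo hi Ds A thr t)).sup Fm)
  then 1 else 0

variable {M : ℝ≥0∞} {De Fm : ℕ → ℝ≥0∞} {kld : Prop}

lemma omr_le_one (t : ℕ) : omr B a b lo hi Ds A thr M De Fm kld t ≤ 1 := by
  unfold omr; split_ifs
  · exact le_rfl
  · exact zero_le_one

lemma omr_eq_zero_or_one (t : ℕ) :
    omr B a b lo hi Ds A thr M De Fm kld t = 0 ∨ omr B a b lo hi Ds A thr M De Fm kld t = 1 := by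
  unfold omr; split_ifs
  · exact Or.inr rfl
  · exact Or.inl rfl

lemma omr_ne_zero_iff (t : ℕ) : omr B a b lo hi Ds A thr M De Fm kld t ≠ 0 ↔
    ¬ kld ∧ (zst B a b lo hi Ds t ∨ A ≤ De (be B a b lo hi Ds A thr t - 1) ∨
    M * A ≤ (Finset.Ico (bs B a b lo hi Ds A thr t) (be B a b lo hi Ds A thr t)).sup Fm) := by
  unfold omr; split_ifs with h
  · simp [h]
  · simp [h]

lemma omr_eq_one_iff (t : ℕ) : omr B a b lo hi Ds A thr M De Fm kld t = 1 ↔
    ¬ kld ∧ (zst B a b lo hi Ds t ∨ A ≤ De (be B a b lo hi Ds A thr t - 1) ∨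
    M * A ≤ (Finset.Ico (bs B a b lo hi Ds A thr t) (be B a b lo hi Ds A thr t)).sup Fm) := by
  rw [← omr_ne_zero_iff]
  rcases omr_eq_zero_or_one (B := B) (a := a) (b := b) (lo := lo) (hi := hi) (Ds := Ds) (A := A)
    (thr := thr) (M := M) (De := De) (Fm := Fm) (kld := kld) t with h | h <;> simp [h]

/-- the rule is constant on the block. -/
theorem omr_const (h : Wins B a b) (hA : ∃ c, 1 ≤ c ∧ thr c ≤ A) {t r : ℕ} (ha : a ≤ t)
    (hb : t < b) (h1 : bs B a b lo hi Ds A thr t ≤ r) (h2 : r < be B a b lo hi Ds A thr t) :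
    omr B a b lo hi Ds A thr M De Fm kld r = omr B a b lo hi Ds A thr M De Fm kld t := by
  obtain ⟨h3, -, h4, h5⟩ := block_const h hA ha hb h1 h2
  unfold omr
  rw [h4, h5]
  congr 1
  exact propext (and_congr_right fun _ => or_congr_left h3)

/-- a stopped label which is not killed is `OWN`, ends its block below the cap and has small visible
mass on its whole block. -/
theorem omr_zero (t : ℕ) (hk : ¬ kld) (h0 : omr B a b lo hi Ds A thr M De Fm kld t = 0) :
    ¬ zst B a b lo hi Ds t ∧ De (be B a b lo hi Ds A thr t - 1) < A ∧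
      ∀ r, bs B a b lo hi Ds A thr t ≤ r → r < be B a b lo hi Ds A thr t → Fm r < M * A := by
  have h1 : ¬ (omr B a b lo hi Ds A thr M De Fm kld t ≠ 0) := not_not_intro h0
  rw [omr_ne_zero_iff] at h1
  push Not at h1
  have h2 := h1 hk
  refine ⟨h2.1, h2.2.1, fun r hr1 hr2 => ?_⟩
  exact lt_of_le_of_lt (Finset.le_sup (f := Fm) (Finset.mem_Ico.2 ⟨hr1, hr2⟩)) h2.2.2

/-- an awake `OWN` label has `A ≤ Dbl` on its block, if `De, Fm ≤ Ds` and `1 ≤ M`. -/
theorem le_Dbl_of_omr (h : Wins B a b) {t : ℕ} (ha : a ≤ t) (hb : t < b)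
    (hM : 1 ≤ M) (hDe : ∀ r, De r ≤ Ds r) (hFm : ∀ r, Fm r ≤ Ds r)
    (hz : ¬ zst B a b lo hi Ds t) (h0 : omr B a b lo hi Ds A thr M De Fm kld t ≠ 0) :
    A ≤ Dbl B a b lo hi Ds A thr t := by
  rw [omr_ne_zero_iff] at h0
  have hiv := iv_block (lo := lo) (hi := hi) (Ds := Ds) (A := A) (thr := thr) h ha hb
  have h3 := hiv.2.1
  rcases h0.2 with h1 | h1 | h1
  · exact absurd h1 hz
  · exact h1.trans ((hDe _).trans (le_Dst (c := kl B a b lo hi Ds A thr t) (t := t)
      (by unfold bs at h3; unfold be at h3 ⊢; omega) (by unfold bs at h3; unfold be at h3 ⊢; omega)))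
  · calc A ≤ M * A := le_mul_of_one_le_left zero_le hM
      _ ≤ _ := h1
      _ ≤ (Finset.Ico (bs B a b lo hi Ds A thr t) (be B a b lo hi Ds A thr t)).sup Ds :=
        Finset.sup_mono_fun fun r _ => hFm r
      _ = Dbl B a b lo hi Ds A thr t := rfl

/-! ### measurability -/

section Meas

variable {X : Type*} [MeasurableSpace X] {Dx : ℕ → X → ℝ≥0∞} {Ax : X → ℝ≥0∞}

lemma measurable_Dst (hD : ∀ r, Measurable (Dx r)) (c t : ℕ) :
    Measurable fun x => Dst B b (fun r => Dx r x) c t := by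
  unfold Dst
  generalize Finset.Ico (ws B c t) (we B b c t) = s
  induction s using Finset.induction_on with
  | empty => simp
  | insert i s _ ih =>
    simp only [Finset.sup_insert]
    exact (hD i).sup ih

lemma measurableSet_zst (hD : ∀ r, Measurable (Dx r)) (t : ℕ) :
    MeasurableSet {x | zst B a b lo hi (fun r => Dx r x) t} := by
  induction t with
  | zero =>
    have : {x | zst B a b lo hi (fun r => Dx r x) 0} =
        {x | lo ≤ Dst B b (fun r => Dx r x) 0 0} := by ext x; simp [zst]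
    rw [this]
    exact measurableSet_le measurable_const (measurable_Dst hD 0 0)
  | succ t ih =>
    by_cases ht : t + 1 ∈ B 0
    · have : {x | zst B a b lo hi (fun r => Dx r x) (t + 1)} =
          {x | hi ≤ Dst B b (fun r => Dx r x) 0 (t + 1)} ∪
            ({x | lo ≤ Dst B b (fun r => Dx r x) 0 (t + 1)} ∩
              ({_x | t + 1 = a} ∪ {x | zst B a b lo hi (fun r => Dx r x) t})) := by
        ext x
        exact zst_succ_of_mem ht
      rw [this]
      exact (measurableSet_le measurable_const (measurable_Dst hD 0 _)).union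
        ((measurableSet_le measurable_const (measurable_Dst hD 0 _)).inter
          ((MeasurableSet.const _).union ih))
    · have : {x | zst B a b lo hi (fun r => Dx r x) (t + 1)} =
          {x | zst B a b lo hi (fun r => Dx r x) t} := by
        ext x
        exact zst_succ_of_not_mem ht
      rw [this]; exact ih

lemma measurable_cl (hD : ∀ r, Measurable (Dx r)) (hA : Measurable Ax)
    (hex : ∀ x, ∃ c, 1 ≤ c ∧ thr c ≤ Ax x) (t : ℕ) :
    Measurable fun x => cl B b (fun r => Dx r x) (Ax x) thr t := by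
  have hP : ∀ c, MeasurableSet {x | 1 ≤ c ∧ (thr c ≤ Dst B b (fun r => Dx r x) c t ∨ thr c ≤ Ax x)} :=
    fun c => (MeasurableSet.const _).inter ((measurableSet_le measurable_const
      (measurable_Dst hD c t)).union (measurableSet_le measurable_const hA))
  refine measurable_to_countable' fun c => ?_
  have h1 : (fun x => cl B b (fun r => Dx r x) (Ax x) thr t) ⁻¹' {c} =
      {x | 1 ≤ c ∧ (thr c ≤ Dst B b (fun r => Dx r x) c t ∨ thr c ≤ Ax x)} ∩
        ⋂ c' ∈ Finset.range c,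
          {x | 1 ≤ c' ∧ (thr c' ≤ Dst B b (fun r => Dx r x) c' t ∨ thr c' ≤ Ax x)}ᶜ := by
    ext x
    have h2 := cl_spec (B := B) (b := b) (Ds := fun r => Dx r x) (thr := thr) (hex x) t
    simp only [Set.mem_preimage, Set.mem_singleton_iff, Set.mem_inter_iff, Set.mem_iInter,
      Finset.mem_range, Set.mem_compl_iff]
    constructor
    · rintro rfl
      exact ⟨h2, fun c' hc' => Nat.notMem_of_lt_sInf hc'⟩
    · rintro ⟨h3, h4⟩
      apply le_antisymm
      · exact Nat.sInf_le h3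
      · by_contra hcon
        push Not at hcon
        exact h4 _ hcon h2
  rw [h1]
  exact (hP c).inter (Finset.measurableSet_biInter _ fun c' _ => (hP c').compl)

lemma measurable_kl (hD : ∀ r, Measurable (Dx r)) (hA : Measurable Ax)
    (hex : ∀ x, ∃ c, 1 ≤ c ∧ thr c ≤ Ax x) (t : ℕ) :
    Measurable fun x => kl B a b lo hi (fun r => Dx r x) (Ax x) thr t := by
  classical
  unfold kl
  exact Measurable.ite (measurableSet_zst hD t) measurable_const (measurable_cl hD hA hex t)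

lemma measurable_omr (hD : ∀ r, Measurable (Dx r)) (hA : Measurable Ax)
    (hex : ∀ x, ∃ c, 1 ≤ c ∧ thr c ≤ Ax x) {Dex Fmx : ℕ → X → ℝ≥0∞}
    (hDe : ∀ r, Measurable (Dex r)) (hFm : ∀ r, Measurable (Fmx r)) {Z : Set X}
    (hZ : MeasurableSet Z) (t : ℕ) :
    Measurable fun x => omr B a b lo hi (fun r => Dx r x) (Ax x) thr M (fun r => Dex r x)
      (fun r => Fmx r x) (x ∈ Z) t := by
  classical
  -- the class is measurable with countable range
  have hk := measurable_kl (B := B) (a := a) (b := b) (lo := lo) (hi := hi) hD hA hex t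
  have hsup : ∀ s : Finset ℕ, Measurable fun x => s.sup fun r => Fmx r x := by
    intro s
    induction s using Finset.induction_on with
    | empty => simp
    | insert i s _ ih =>
      simp only [Finset.sup_insert]
      exact (hFm i).sup ih
  have hset : MeasurableSet {x | ¬ (x ∈ Z) ∧ (zst B a b lo hi (fun r => Dx r x) t ∨
      Ax x ≤ Dex (be B a b lo hi (fun r => Dx r x) (Ax x) thr t - 1) x ∨
      M * Ax x ≤ (Finset.Ico (bs B a b lo hi (fun r => Dx r x) (Ax x) thr t)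
        (be B a b lo hi (fun r => Dx r x) (Ax x) thr t)).sup fun r => Fmx r x)} := by
    have h2 : {x | ¬ (x ∈ Z) ∧ (zst B a b lo hi (fun r => Dx r x) t ∨
      Ax x ≤ Dex (be B a b lo hi (fun r => Dx r x) (Ax x) thr t - 1) x ∨
      M * Ax x ≤ (Finset.Ico (bs B a b lo hi (fun r => Dx r x) (Ax x) thr t)
        (be B a b lo hi (fun r => Dx r x) (Ax x) thr t)).sup fun r => Fmx r x)} =
        Zᶜ ∩ ({x | zst B a b lo hi (fun r => Dx r x) t} ∪
          ⋃ k : ℕ, ({x | kl B a b lo hi (fun r => Dx r x) (Ax x) thr t = k} ∩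
            ({x | Ax x ≤ Dex (we B b k t - 1) x} ∪
              {x | M * Ax x ≤ (Finset.Ico (ws B k t) (we B b k t)).sup fun r => Fmx r x}))) := by
      ext x
      simp only [Set.mem_ofPred_eq, Set.mem_inter_iff, Set.mem_compl_iff, Set.mem_union,
        Set.mem_iUnion]
      unfold be bs
      constructor
      · rintro ⟨h3, h4 | h4⟩
        · exact ⟨h3, Or.inl h4⟩
        · exact ⟨h3, Or.inr ⟨_, rfl, h4⟩⟩
      · rintro ⟨h3, h4 | ⟨k, h4, h5⟩⟩
        · exact ⟨h3, Or.inl h4⟩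
        · subst h4
          exact ⟨h3, Or.inr h5⟩
    rw [h2]
    refine hZ.compl.inter ((measurableSet_zst hD t).union (MeasurableSet.iUnion fun k => ?_))
    refine (measurableSet_eq_fun hk measurable_const).inter ?_
    exact (measurableSet_le hA (hDe _)).union (measurableSet_le (hA.const_mul M) (hsup _))
  unfold omr
  exact Measurable.ite hset measurable_const measurable_const

end Meas

end Vale.Agent.P262.H713
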